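import Vale.Agent.P004H.H666.Hasse4
import Vale.Agent.P179W.PtMap

/-!
The degree of a point of `y² = x³ + a x + b` over a field containing `k(t)`: parallelogram law and
multiplicativity.
-/

set_option linter.all false

open scoped Classical

noncomputable section

namespace Vale.Agent.P004M.TE

open Polynomial WeierstrassCurve.Affine Vale.Agent.P004H.H666

section pm
variable {F F' : Type} [Field F] [Field F'] {A B : F} {A' B' : F'}

theorem crv_map (f : F →+* F') (ha : f A = A') (hb : f B = B') :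
    WeierstrassCurve.map (crv A B) f = crv A' B' := by
  ext <;> simp [ha, hb]

/-- the map of points -/
def pm (f : F →+* F') (ha : f A = A') (hb : f B = B') : (crv A B).Point →+ (crv A' B').Point :=
  AddMonoidHom.mk' (P179W.ptFun f (crv A' B'))
    (P179W.ptMap_holds F F' f (crv A B) (crv A' B') (crv_map f ha hb)).1

theorem pm_inj (f : F →+* F') (ha : f A = A') (hb : f B = B') : Function.Injective (pm f ha hb) :=
  (P179W.ptMap_holds F F' f (crv A B) (crv A' B') (crv_map f ha hb)).2.2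

theorem nsg_map (f : F →+* F') (ha : f A = A') (hb : f B = B') {x y : F}
    (h : (crv A B).Nonsingular x y) : (crv A' B').Nonsingular (f x) (f y) := by
  rw [← crv_map f ha hb]
  exact (map_nonsingular (crv A B) f.injective x y).2 h

theorem pm_some (f : F →+* F') (ha : f A = A') (hb : f B = B') {x y : F}
    (h : (crv A B).Nonsingular x y) :
    pm f ha hb (.some x y h) = .some (f x) (f y) (nsg_map f ha hb h) :=
  P179W.pt_of (E := crv A' B') _

theorem xp_pm (f : F →+* F') (ha : f A = A') (hb : f B = B') (P : (crv A B).Point) :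
    xp (pm f ha hb P) = f (xp P) ∧ zp (pm f ha hb P) = f (zp P) := by
  rcases P with _ | ⟨x, y, h⟩
  · change xp (pm f ha hb 0) = f (xp 0) ∧ zp (pm f ha hb 0) = f (zp 0)
    simp
  · rw [pm_some]
    simp

theorem eq_zero_of_zp {P : (crv A B).Point} (h : zp P = 0) : P = 0 := by
  rcases P with _ | ⟨x, y, h'⟩
  · rfl
  · simp at h

/-- `x` and `y / u` lie in `K` -/
def In (K : Subfield F) (u : F) : (crv A B).Point → Prop
  | .zero => True
  | .some x y _ => x ∈ K ∧ y / u ∈ K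

theorem In.neg {K : Subfield F} {u : F} {P : (crv A B).Point} (h : In K u P) : In K u (-P) := by
  rcases P with _ | ⟨x, y, h'⟩
  · trivial
  · rw [Point.neg_some]
    refine ⟨h.1, ?_⟩
    have : (crv A B).negY x y / u = -(y / u) := by simp [negY, neg_div]
    rw [this]
    exact K.neg_mem h.2

theorem In.add {K : Subfield F} {u : F} (hu : u ≠ 0) (h2 : u ^ 2 ∈ K) (hA : A ∈ K)
    {P Q : (crv A B).Point} (h : In K u P) (h' : In K u Q) : In K u (P + Q) := by
  rcases P with _ | ⟨x₁, y₁, h₁⟩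
  · exact (zero_add Q).symm ▸ h'
  rcases Q with _ | ⟨x₂, y₂, h₂⟩
  · exact h
  by_cases hxy : x₁ = x₂ ∧ y₁ = (crv A B).negY x₂ y₂
  · rw [Point.add_of_Y_eq hxy.1 hxy.2]; trivial
  rw [Point.add_some hxy]
  have hl : (crv A B).slope x₁ x₂ y₁ y₂ / u ∈ K := by
    by_cases hx : x₁ = x₂
    · rw [slope_of_Y_ne hx fun h => hxy ⟨hx, h⟩]
      have : (3 * x₁ ^ 2 + 2 * (crv A B).a₂ * x₁ + (crv A B).a₄ - (crv A B).a₁ * y₁) /
          (y₁ - (crv A B).negY x₁ y₁) / u = (3 * x₁ ^ 2 + A) / ((y₁ / u + y₁ / u) * u ^ 2) := by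
        simp only [negY, mul_zero, zero_mul, add_zero, sub_zero, sub_neg_eq_add]
        rw [div_div]
        congr 1
        field_simp
      rw [this]
      exact K.div_mem (K.add_mem (K.mul_mem (ofNat_mem K 3) (K.pow_mem h.1 2)) hA)
        (K.mul_mem (K.add_mem h.2 h.2) h2)
    · rw [slope_of_X_ne hx]
      have : (y₁ - y₂) / (x₁ - x₂) / u = (y₁ / u - y₂ / u) / (x₁ - x₂) := by ring
      rw [this]
      exact K.div_mem (K.sub_mem h.2 h'.2) (K.sub_mem h.1 h'.1)
  change _ ∈ K ∧ _ ∈ K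
  generalize (crv A B).slope x₁ x₂ y₁ y₂ = l at hl ⊢
  have hx : (crv A B).addX x₁ x₂ l ∈ K := by
    have : (crv A B).addX x₁ x₂ l = (l / u) ^ 2 * u ^ 2 - x₁ - x₂ := by
      simp only [addX, zero_mul, add_zero, sub_zero]
      field_simp
    rw [this]
    exact K.sub_mem (K.sub_mem (K.mul_mem (K.pow_mem hl 2) h2) h.1) h'.1
  refine ⟨hx, ?_⟩
  have : (crv A B).addY x₁ x₂ y₁ l / u = -(l / u * ((crv A B).addX x₁ x₂ l - x₁) + y₁ / u) := by
    simp only [addY, negY, negAddY, zero_mul, sub_zero]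
    ring
  rw [this]
  exact K.neg_mem (K.add_mem (K.mul_mem hl (K.sub_mem hx h.1)) h.2)

end pm

/-- a function with the parallelogram law is a quadratic form -/
theorem exists_bil {G : Type*} [AddCommGroup G] (D : G → ℤ)
    (h : ∀ x y, D (x + y) + D (x - y) = 2 * D x + 2 * D y) :
    ∃ β : G →+ G →+ ℤ, ∀ x y, β x y = D (x + y) - D x - D y := by
  have h0 : D 0 = 0 := by have := h 0 0; simp only [add_zero, sub_zero] at this; omega
  have hn : ∀ x, D (-x) = D x := fun x => by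
    have := h 0 x; simp only [zero_add, zero_sub] at this; omega
  have ha : ∀ x x' y, D (x + x' + y) - D (x + x') - D y =
      D (x + y) - D x - D y + (D (x' + y) - D x' - D y) := by
    intro x x' y
    have e1 := h (x + y) x'
    have e2 := h (x - y) x'
    have e3 := h (x' + y) x
    have e4 := h (x' - y) x
    have e5 := h (x + x') y
    have e6 := h x y
    have e7 := h x' y
    rw [show x + y + x' = x + x' + y by abel] at e1
    rw [show x - y + x' = x + x' - y by abel] at e2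
    rw [show x' + y + x = x + x' + y by abel, show x' + y - x = -(x - y - x') by abel, hn] at e3
    rw [show x' - y + x = x + x' - y by abel, show x' - y - x = -(x + y - x') by abel, hn] at e4
    omega
  refine ⟨AddMonoidHom.mk' (fun x => AddMonoidHom.mk' (fun y => D (x + y) - D x - D y)
    fun y y' => ?_) fun x x' => AddMonoidHom.ext fun y => ha x x' y, fun _ _ => rfl⟩
  have := ha y y' x
  rw [add_comm _ x, add_comm y x, add_comm y' x] at this
  omega

variable {k : Type} [Field k]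

/-- first form -/
def qA (a b : k) (f g f' g' : k[X]) : k[X] :=
  (f * f' - C a * g * g') ^ 2 - 4 * C b * (f * g' + g * f') * (g * g')
/-- second form -/
def qB (a b : k) (f g f' g' : k[X]) : k[X] :=
  2 * (f * f' + C a * g * g') * (f * g' + g * f') + 4 * C b * (g * g') ^ 2
/-- third form -/
def qC (f g f' g' : k[X]) : k[X] := (f * g' - g * f') ^ 2

theorem forms_ne {κ : Type} [Field κ] {a b f g f' g' : κ} (h2 : (2 : κ) ≠ 0)
    (hD : 4 * a ^ 3 + 27 * b ^ 2 ≠ 0) (h : f = 0 → g ≠ 0) (h' : f' = 0 → g' ≠ 0)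
    (hA : (f * f' - a * g * g') ^ 2 - 4 * b * (f * g' + g * f') * (g * g') = 0)
    (hB : 2 * (f * f' + a * g * g') * (f * g' + g * f') + 4 * b * (g * g') ^ 2 = 0)
    (hC : f * g' - g * f' = 0) : False := by
  by_cases hg : g = 0
  · have hf : f ≠ 0 := fun e => h e hg
    have hg' : g' = 0 := by
      rw [hg, zero_mul, sub_zero] at hC
      exact (mul_eq_zero.1 hC).resolve_left hf
    have hf' : f' ≠ 0 := fun e => h' e hg'
    rw [hg, hg'] at hA
    exact pow_ne_zero 2 (mul_ne_zero hf hf') (by linear_combination hA)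
  have hg' : g' ≠ 0 := by
    intro e
    rw [e, mul_zero, zero_sub, neg_eq_zero] at hC
    exact h' ((mul_eq_zero.1 hC).resolve_left hg) e
  obtain ⟨x, rfl⟩ : ∃ x, f = x * g := ⟨f / g, by field_simp⟩
  have e : f' = x * g' := mul_left_cancel₀ hg (by linear_combination -hC)
  subst e
  have h0 := pow_ne_zero 2 (mul_ne_zero hg hg')
  have hU : (x ^ 2 - a) ^ 2 - 8 * b * x = 0 := mul_left_cancel₀ h0 (by linear_combination hA)
  have hV : x ^ 3 + a * x + b = 0 :=
    mul_left_cancel₀ (mul_ne_zero (pow_ne_zero 2 h2) h0) (by linear_combination hB)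
  exact hD (by linear_combination (3 * x ^ 2 + 4 * a) * hU - (3 * x ^ 3 - 5 * a * x - 27 * b) * hV)

theorem prm_q {a b : k} (h2 : (2 : k) ≠ 0) (hD : 4 * a ^ 3 + 27 * b ^ 2 ≠ 0) {f g f' g' : k[X]}
    (h : IsCoprime f g) (h' : IsCoprime f' g') :
    Prm (qA a b f g f' g') (qB a b f g f' g') (qC f g f' g') := by
  intro π hπ ha hb hc
  have : Fact (Irreducible π) := ⟨hπ.irreducible⟩
  rw [← AdjoinRoot.mk_eq_zero] at ha hb hc
  have hi := (AdjoinRoot.of π).injective
  refine forms_ne (κ := AdjoinRoot π) (a := AdjoinRoot.of π a) (b := AdjoinRoot.of π b)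
    (f := AdjoinRoot.mk π f) (g := AdjoinRoot.mk π g) (f' := AdjoinRoot.mk π f')
    (g' := AdjoinRoot.mk π g') ?_ ?_ ?_ ?_ ?_ ?_ ?_
  · intro e
    exact h2 (hi (by rw [map_ofNat, e, map_zero]))
  · intro e
    exact hD (hi (by simpa only [map_add, map_mul, map_pow, map_ofNat, map_zero] using e))
  · intro e e'
    exact not_dvd_both h hπ (AdjoinRoot.mk_eq_zero.1 e) (AdjoinRoot.mk_eq_zero.1 e')
  · intro e e'
    exact not_dvd_both h' hπ (AdjoinRoot.mk_eq_zero.1 e) (AdjoinRoot.mk_eq_zero.1 e')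
  · simpa only [qA, map_add, map_mul, map_pow, map_ofNat, map_sub, AdjoinRoot.mk_C] using ha
  · simpa only [qB, map_add, map_mul, map_pow, map_ofNat, map_sub, AdjoinRoot.mk_C] using hb
  · simp only [qC, map_mul, map_pow, map_sub] at hc
    exact pow_eq_zero_iff two_ne_zero |>.1 hc

theorem ne_of_deg {f g : k[X]} (h : g.degree < f.degree) : f ≠ 0 := by
  rintro rfl
  exact not_lt_bot h

theorem dlt_mul {f g f' g' : k[X]} (h : g.degree < f.degree) (h' : g'.degree ≤ f'.degree)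
    (hf' : f' ≠ 0) : (g * g').degree < (f * f').degree := by
  rw [degree_mul, degree_mul]
  calc g.degree + g'.degree ≤ g.degree + f'.degree := add_le_add le_rfl h'
    _ < _ := WithBot.add_lt_add_right (degree_ne_bot.2 hf') h

theorem dC_le (c : k) (p : k[X]) : (C c * p).degree ≤ p.degree := by
  rw [← smul_eq_C_mul]; exact degree_smul_le c p

theorem deg_q (a b : k) {f g f' g' : k[X]} (h : g.degree < f.degree) (h' : g'.degree < f'.degree) :
    (qA a b f g f' g').degree = (f * f' * (f * f')).degree ∧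
      (qB a b f g f' g').degree < (f * f' * (f * f')).degree ∧
      (qC f g f' g').degree < (f * f' * (f * f')).degree := by
  have hf := ne_of_deg h
  have hf' := ne_of_deg h'
  have h0 := mul_ne_zero hf hf'
  have e1 : (g * g').degree < (f * f').degree := dlt_mul h h'.le hf'
  have e2 : (g * f').degree < (f * f').degree := dlt_mul h le_rfl hf'
  have e3 : (f * g').degree < (f * f').degree := by
    rw [mul_comm f, mul_comm f]; exact dlt_mul h' le_rfl hf
  have e4 : (f * g' + g * f').degree < (f * f').degree := (degree_add_le _ _).trans_lt (max_lt e3 e2)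
  have e5 : (f * g' - g * f').degree < (f * f').degree := (degree_sub_le _ _).trans_lt (max_lt e3 e2)
  have e6 : (C a * (g * g')).degree < (f * f').degree := (dC_le _ _).trans_lt e1
  refine ⟨?_, ?_, ?_⟩
  · have e : qA a b f g f' g' = (f * f' - C a * (g * g')) * (f * f' - C a * (g * g')) -
        C (4 * b) * ((f * g' + g * f') * (g * g')) := by
      rw [qA, map_mul, map_ofNat]; ring
    have e7 : ((f * f' - C a * (g * g')) * (f * f' - C a * (g * g'))).degree =
        (f * f' * (f * f')).degree := by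
      rw [degree_mul, degree_sub_eq_left_of_degree_lt e6, ← degree_mul]
    rw [e, degree_sub_eq_left_of_degree_lt, e7]
    rw [e7]
    exact (dC_le _ _).trans_lt (dlt_mul e4 e1.le h0)
  · have e : qB a b f g f' g' = C 2 * ((f * g' + g * f') * (f * f' + C a * (g * g'))) +
        C (4 * b) * (g * g' * (g * g')) := by
      rw [qB, map_mul, map_ofNat, map_ofNat]; ring
    rw [e]
    exact (degree_add_le _ _).trans_lt (max_lt ((dC_le _ _).trans_lt
      (dlt_mul e4 ((degree_add_le _ _).trans (max_le le_rfl e6.le)) h0))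
      ((dC_le _ _).trans_lt (dlt_mul e1 e1.le h0)))
  · rw [qC, sq]
    exact dlt_mul e5 e5.le h0

theorem pole {f₁ g₁ f₂ g₂ : k[X]} (hB : (f₁ * g₂ + g₁ * f₂).degree < (f₁ * f₂).degree)
    (hC : (g₁ * g₂).degree < (f₁ * f₂).degree) : g₁.degree < f₁.degree := by
  by_contra hc
  rw [not_lt] at hc
  have h0 := ne_of_deg hC
  have h1 := left_ne_zero_of_mul h0
  have h2 : g₂.degree < f₂.degree := by
    by_contra hc'
    rw [not_lt] at hc'
    rw [degree_mul, degree_mul] at hC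
    exact absurd (add_le_add hc hc') (not_le.2 hC)
  have e1 : (f₁ * g₂).degree < (f₁ * f₂).degree := by
    rw [mul_comm f₁, mul_comm f₁]; exact dlt_mul h2 le_rfl h1
  have e2 : (f₁ * f₂).degree ≤ (g₁ * f₂).degree := by
    rw [degree_mul, degree_mul]; exact add_le_add hc le_rfl
  rw [degree_add_eq_right_of_degree_lt (e1.trans_le e2)] at hB
  exact absurd e2 (not_le.2 hB)

theorem frac' (r : k[X]) {s : k[X]} (hs : s ≠ 0) :
    ∃ m n : k[X], IsCoprime m n ∧ n ≠ 0 ∧ r * n = m * s := by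
  obtain ⟨m, n, h, hn, e⟩ := frac (ph r / ph s)
  refine ⟨m, n, h, hn, ph_inj ?_⟩
  have := ph_ne hs
  rw [map_mul, map_mul, ← e]
  field_simp

variable {L : Type} [Field L] [Algebra k L]

variable (L) in
/-- the curve over `L` -/
abbrev Cv (a b : k) := crv (algebraMap k L a) (algebraMap k L b)

variable {a b : k}

/-- `(f(t) : g(t))` is the x-coordinate -/
def Rp (t : L) (P : (Cv L a b).Point) (f g : k[X]) : Prop :=
  IsCoprime f g ∧ ∃ ρ : L, ρ ≠ 0 ∧ xp P = ρ * aeval t f ∧ zp P = ρ * aeval t g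

/-- the degree is `d`, with a pole at infinity -/
def Hd (t : L) (P : (Cv L a b).Point) (d : ℕ) : Prop :=
  ∃ f g, Rp t P f g ∧ g.degree < f.degree ∧ f.natDegree = d

theorem Hd.unique {t : L} (ht : Function.Injective (aeval t : k[X] →ₐ[k] L))
    {P : (Cv L a b).Point} {d d' : ℕ} (h : Hd t P d) (h' : Hd t P d') : d = d' := by
  obtain ⟨f, g, ⟨hc, ρ, hρ, hx, hz⟩, hd, rfl⟩ := h
  obtain ⟨f', g', ⟨hc', ρ', hρ', hx', hz'⟩, hd', rfl⟩ := h'
  have e : f * g' = f' * g := by
    apply ht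
    refine mul_left_cancel₀ (mul_ne_zero hρ hρ') ?_
    rw [map_mul, map_mul]
    rw [hx] at hx'
    rw [hz] at hz'
    linear_combination ρ' * aeval t g' * hx' - ρ' * aeval t f' * hz'
  exact le_antisymm
    (natDegree_le_of_dvd (hc.dvd_of_dvd_mul_right (e ▸ dvd_mul_right f g')) (ne_of_deg hd'))
    (natDegree_le_of_dvd (hc'.dvd_of_dvd_mul_right (e ▸ dvd_mul_right f' g)) (ne_of_deg hd))

theorem hd_zero (t : L) : Hd t (0 : (Cv L a b).Point) 0 :=
  ⟨1, 0, ⟨isCoprime_one_left, 1, one_ne_zero, by simp, by simp⟩, by simp, natDegree_one⟩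

theorem Hd.neg {t : L} {P : (Cv L a b).Point} {d : ℕ} (h : Hd t P d) : Hd t (-P) d := by
  obtain ⟨f, g, ⟨hc, ρ, hρ, hx, hz⟩, hd, e⟩ := h
  exact ⟨f, g, ⟨hc, ρ, hρ, by rw [xp_neg, hx], by rw [zp_neg, hz]⟩, hd, e⟩

theorem Hd.eq_zero {t : L} {P : (Cv L a b).Point} (h : Hd t P 0) : P = 0 := by
  obtain ⟨f, g, ⟨hc, ρ, hρ, hx, hz⟩, hd, e⟩ := h
  have hg : g = 0 := by
    by_contra hg
    have := natDegree_lt_natDegree hg hd
    omega
  exact eq_zero_of_zp (by rw [hz, hg, map_zero, mul_zero])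

open IntermediateField in
theorem exists_rp {t u : L} (ht : Function.Injective (aeval t : k[X] →ₐ[k] L))
    {P : (Cv L a b).Point} (h : In (k⟮t⟯).toSubfield u P) : ∃ f g, Rp t P f g := by
  rcases P with _ | ⟨x, y, h'⟩
  · obtain ⟨f, g, h, -⟩ := hd_zero (a := a) (b := b) t
    exact ⟨f, g, h⟩
  obtain ⟨r, s, e⟩ := (mem_adjoin_simple_iff k x).1 h.1
  rcases eq_or_ne s 0 with rfl | hs
  · exact ⟨0, 1, isCoprime_one_right, 1, one_ne_zero, by simp [e], by simp⟩
  obtain ⟨m, n, hc, hn, e'⟩ := frac' r hs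
  have hs' : aeval t s ≠ 0 := (map_ne_zero_iff _ ht).2 hs
  have hn' : aeval t n ≠ 0 := (map_ne_zero_iff _ ht).2 hn
  have e2 := congrArg (aeval t) e'
  rw [map_mul, map_mul] at e2
  refine ⟨m, n, hc, (aeval t n)⁻¹, inv_ne_zero hn', ?_, by simp [hn']⟩
  rw [xp_some, e]
  field_simp
  rw [e2, mul_comm]

/-- the parallelogram law -/
theorem par (h2 : (2 : k) ≠ 0) (hD : 4 * a ^ 3 + 27 * b ^ 2 ≠ 0) {t : L}
    (ht : Function.Injective (aeval t : k[X] →ₐ[k] L)) {P Q : (Cv L a b).Point} {d d' : ℕ}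
    (h : Hd t P d) (h' : Hd t Q d') {f₁ g₁ f₂ g₂ : k[X]} (h₁ : Rp t (P + Q) f₁ g₁)
    (h₂ : Rp t (P - Q) f₂ g₂) :
    ∃ d₁ d₂, Hd t (P + Q) d₁ ∧ Hd t (P - Q) d₂ ∧ d₁ + d₂ = 2 * d + 2 * d' := by
  obtain ⟨f, g, ⟨hc, ρ, hρ, hx, hz⟩, hd, rfl⟩ := h
  obtain ⟨f', g', ⟨hc', ρ', hρ', hx', hz'⟩, hd', rfl⟩ := h'
  obtain ⟨hc₁, ρ₁, hρ₁, hx₁, hz₁⟩ := id h₁
  obtain ⟨hc₂, ρ₂, hρ₂, hx₂, hz₂⟩ := id h₂
  have h2' : (2 : L) ≠ 0 := fun e =>
    h2 ((algebraMap k L).injective (by rw [map_ofNat, e, map_zero]))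
  obtain ⟨μ, hμ, e1, e2, e3⟩ := rl_point h2' P Q
  rw [hx, hz, hx', hz', hx₁, hx₂] at e1
  rw [hx, hz, hx', hz', hx₁, hx₂, hz₁, hz₂] at e2
  rw [hx, hz, hx', hz', hz₁, hz₂] at e3
  obtain ⟨d1, d2, d3⟩ := deg_q a b hd hd'
  have h0 := mul_ne_zero (ne_of_deg hd) (ne_of_deg hd')
  have hA : qA a b f g f' g' ≠ 0 := by
    rw [← degree_ne_bot, d1, degree_ne_bot]; exact mul_ne_zero h0 h0
  have c1 : ρ₁ * ρ₂ * aeval t (f₁ * f₂) = μ * ρ ^ 2 * ρ' ^ 2 * aeval t (qA a b f g f' g') := by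
    simp only [qA, map_mul, map_add, map_sub, map_pow, map_ofNat, aeval_C]
    linear_combination e1
  have c2 : ρ₁ * ρ₂ * aeval t (f₁ * g₂ + g₁ * f₂) =
      μ * ρ ^ 2 * ρ' ^ 2 * aeval t (qB a b f g f' g') := by
    simp only [qB, map_mul, map_add, map_sub, map_pow, map_ofNat, aeval_C]
    linear_combination e2
  have c3 : ρ₁ * ρ₂ * aeval t (g₁ * g₂) = μ * ρ ^ 2 * ρ' ^ 2 * aeval t (qC f g f' g') := by
    simp only [qC, map_mul, map_sub, map_pow]
    linear_combination e3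
  obtain ⟨m, n, hmn, hn, e⟩ := frac' (f₁ * f₂) hA
  have key : ∀ {T S : k[X]}, ρ₁ * ρ₂ * aeval t T = μ * ρ ^ 2 * ρ' ^ 2 * aeval t S →
      n * T = m * S := by
    intro T S hc
    have e' := congrArg (aeval t) e
    refine mul_left_cancel₀ hA (ht (mul_left_cancel₀ (mul_ne_zero hρ₁ hρ₂) ?_))
    simp only [map_mul] at e' c1 ⊢
    linear_combination aeval t n * aeval t (qA a b f g f' g') * hc -
      aeval t n * aeval t S * c1 + ρ₁ * ρ₂ * aeval t S * e'
  have hm : m ≠ 0 := by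
    rintro rfl
    rw [zero_mul] at e
    rw [(mul_eq_zero.1 e).resolve_right hn, map_zero, mul_zero] at c1
    exact mul_ne_zero (mul_ne_zero (mul_ne_zero hμ (pow_ne_zero 2 hρ)) (pow_ne_zero 2 hρ'))
      ((map_ne_zero_iff _ ht).2 hA) c1.symm
  obtain ⟨w, hw, u1, u2, u3⟩ := unit_ratio hmn hm hn (prm_q h2 hD hc hc') (prm_prod hc₁ hc₂)
    (key c1) (key c2) (key c3)
  have hw' : ∀ p : k[X], (w * p).degree = p.degree := fun p => by
    rw [degree_mul, degree_eq_zero_of_isUnit hw, zero_add]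
  have v1 : (f₁ * f₂).degree = (f * f' * (f * f')).degree := by rw [u1, hw', d1]
  have v2 : (f₁ * g₂ + g₁ * f₂).degree < (f₁ * f₂).degree := by rw [u2, hw', v1]; exact d2
  have v3 : (g₁ * g₂).degree < (f₁ * f₂).degree := by rw [u3, hw', v1]; exact d3
  refine ⟨_, _, ⟨f₁, g₁, h₁, pole v2 v3, rfl⟩, ⟨f₂, g₂, h₂, pole (f₂ := f₁) (g₂ := g₁) ?_ ?_, rfl⟩,
    ?_⟩
  · rwa [add_comm, mul_comm g₂, mul_comm f₂, mul_comm f₂]
  · rwa [mul_comm g₂, mul_comm f₂]
  · have h3 := ne_of_deg v3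
    rw [← natDegree_mul (left_ne_zero_of_mul h3) (right_ne_zero_of_mul h3),
      natDegree_eq_of_degree_eq v1, natDegree_mul h0 h0,
      natDegree_mul (ne_of_deg hd) (ne_of_deg hd')]
    ring

/-! ### substitution -/

/-- the homogenised substitution -/
def Hm (p : k[X]) (n : ℕ) (f g : k[X]) : k[X] :=
  ∑ i ∈ Finset.range (n + 1), C (p.coeff i) * (f ^ i * g ^ (n - i))

theorem map_Hm {κ : Type} [Field κ] (e : k[X] →+* κ) {p : k[X]} {n : ℕ} (hp : p.natDegree ≤ n)
    (f : k[X]) {g : k[X]} (hg : e g ≠ 0) :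
    e (Hm p n f g) = e g ^ n * p.eval₂ (e.comp C) (e f / e g) := by
  rw [eval₂_eq_sum_range' _ (Nat.lt_succ_of_le hp), Hm, map_sum, Finset.mul_sum]
  refine Finset.sum_congr rfl fun i hi => ?_
  obtain ⟨j, rfl⟩ := Nat.exists_eq_add_of_le (Nat.lt_succ_iff.1 (Finset.mem_range.1 hi))
  rw [Nat.add_sub_cancel_left, map_mul, map_mul, map_pow, map_pow, RingHom.comp_apply, div_pow,
    pow_add]
  field_simp

theorem Hm_eq (p : k[X]) (n : ℕ) {f g : k[X]} (h : g.degree < f.degree) :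
    ∃ r : k[X], Hm p n f g = r + C (p.coeff n) * f ^ n ∧ r.degree < (f ^ n).degree ∧ g ∣ r := by
  have hf := ne_of_deg h
  refine ⟨∑ i ∈ Finset.range n, C (p.coeff i) * (f ^ i * g ^ (n - i)),
    by rw [Hm, Finset.sum_range_succ, Nat.sub_self, pow_zero, mul_one], ?_,
    Finset.dvd_sum fun i hi => ?_⟩
  · refine (degree_sum_le _ _).trans_lt ?_
    rw [Finset.sup_lt_iff (bot_lt_iff_ne_bot.2 (degree_ne_bot.2 (pow_ne_zero n hf)))]
    intro i hi
    obtain ⟨j, rfl⟩ := Nat.exists_eq_add_of_lt (Finset.mem_range.1 hi)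
    refine (dC_le _ _).trans_lt ?_
    rw [show i + j + 1 - i = j + 1 by omega,
      show f ^ i * g ^ (j + 1) = g * (f ^ i * g ^ j) by ring,
      show f ^ (i + j + 1) = f * (f ^ i * f ^ j) by ring]
    refine dlt_mul h ?_ (mul_ne_zero (pow_ne_zero _ hf) (pow_ne_zero _ hf))
    rw [degree_mul, degree_mul, degree_pow, degree_pow, degree_pow]
    exact add_le_add le_rfl (nsmul_le_nsmul_right h.le j)
  · have := Finset.mem_range.1 hi
    exact Dvd.dvd.mul_left (Dvd.dvd.mul_left (dvd_pow_self g (by omega)) _) _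

theorem deg_Hm {p : k[X]} (hp : p ≠ 0) {f g : k[X]} (h : g.degree < f.degree) :
    (Hm p p.natDegree f g).degree = (f ^ p.natDegree).degree := by
  obtain ⟨r, e, hr, -⟩ := Hm_eq p p.natDegree h
  have h1 : (C (p.coeff p.natDegree) * f ^ p.natDegree).degree = (f ^ p.natDegree).degree :=
    degree_C_mul (leadingCoeff_ne_zero.2 hp)
  rw [e, degree_add_eq_right_of_degree_lt (h1 ▸ hr), h1]

theorem cop_Hm {p p' f g : k[X]} (hc : IsCoprime p p') (hd : p'.degree < p.degree)
    (hc' : IsCoprime f g) (h : g.degree < f.degree) :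
    IsCoprime (Hm p p.natDegree f g) (Hm p' p.natDegree f g) := by
  have hp := ne_of_deg hd
  refine isCoprime_of_irreducible_dvd (fun h0 => ?_) fun π hπ h1 h2 => ?_
  · have := deg_Hm hp h
    rw [h0.1, degree_zero] at this
    exact degree_ne_bot.2 (pow_ne_zero _ (ne_of_deg h)) this.symm
  have : Fact (Irreducible π) := ⟨hπ⟩
  by_cases hg : π ∣ g
  · obtain ⟨r, e, -, hr⟩ := Hm_eq p p.natDegree h
    rw [e, dvd_add_right (hg.trans hr)] at h1
    rcases hπ.prime.dvd_or_dvd h1 with h3 | h3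
    · exact hπ.not_isUnit (isUnit_of_dvd_unit h3
        (isUnit_C.2 (isUnit_iff_ne_zero.2 (leadingCoeff_ne_zero.2 hp))))
    · exact not_dvd_both hc' hπ.prime (hπ.prime.dvd_of_dvd_pow h3) hg
  · rw [← AdjoinRoot.mk_eq_zero] at hg h1 h2
    rw [map_Hm _ le_rfl f hg] at h1
    rw [map_Hm _ (natDegree_le_natDegree hd.le) f hg] at h2
    obtain ⟨u, v, e⟩ := hc
    have := congrArg (eval₂ ((AdjoinRoot.mk π).comp C) (AdjoinRoot.mk π f / AdjoinRoot.mk π g)) e
    rw [eval₂_add, eval₂_mul, eval₂_mul, (mul_eq_zero.1 h1).resolve_left (pow_ne_zero _ hg),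
      (mul_eq_zero.1 h2).resolve_left (pow_ne_zero _ hg), eval₂_one] at this
    simp at this

theorem aeval_Hm {t : L} {p : k[X]} {n : ℕ} (hp : p.natDegree ≤ n) (f : k[X]) {g : k[X]}
    (hg : aeval t g ≠ 0) :
    aeval t (Hm p n f g) = aeval t g ^ n * aeval (aeval t f / aeval t g) p := by
  have := map_Hm (aeval t : k[X] →ₐ[k] L).toRingHom hp f hg
  rw [aeval_def (x := aeval t f / aeval t g)]
  have e : (aeval t : k[X] →ₐ[k] L).toRingHom.comp C = algebraMap k L := by
    ext c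
    simp
  rw [e] at this
  exact this

/-- a quotient of positive degree is transcendental -/
theorem inj_div {t : L} (ht : Function.Injective (aeval t : k[X] →ₐ[k] L)) {f g : k[X]}
    (h : g.degree < f.degree) (hg : g ≠ 0) :
    Function.Injective (aeval (aeval t f / aeval t g) : k[X] →ₐ[k] L) := by
  rw [injective_iff_map_eq_zero]
  intro p hp
  by_contra hp0
  have h1 := aeval_Hm (t := t) (le_refl p.natDegree) f ((map_ne_zero_iff _ ht).2 hg)
  rw [hp, mul_zero, map_eq_zero_iff _ ht] at h1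
  have := deg_Hm hp0 h
  rw [h1, degree_zero] at this
  exact degree_ne_bot.2 (pow_ne_zero _ (ne_of_deg h)) this.symm

/-- multiplicativity of the degree -/
theorem Hd.comp {t : L} {f g : k[X]} (hc : IsCoprime f g) (h : g.degree < f.degree)
    (hg : aeval t g ≠ 0) {P : (Cv L a b).Point} {d : ℕ} (hP : Hd (aeval t f / aeval t g) P d) :
    Hd t P (d * f.natDegree) := by
  obtain ⟨p, p', ⟨hc', ρ, hρ, hx, hz⟩, hd, rfl⟩ := hP
  have h1 := deg_Hm (ne_of_deg hd) h
  have h0 := pow_ne_zero p.natDegree hg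
  refine ⟨_, _, ⟨cop_Hm hc' hd hc h, ρ / aeval t g ^ p.natDegree, div_ne_zero hρ h0, ?_, ?_⟩, ?_,
    by rw [natDegree_eq_of_degree_eq h1, natDegree_pow]⟩
  · rw [hx, aeval_Hm le_rfl f hg]; field_simp
  · rw [hz, aeval_Hm (natDegree_le_natDegree hd.le) f hg]; field_simp
  · obtain ⟨r, e, hr, -⟩ := Hm_eq p' p.natDegree h
    rw [h1, e, coeff_eq_zero_of_degree_lt (hd.trans_le degree_le_natDegree), map_zero, zero_mul,
      add_zero]
    exact hr

variable {L' : Type} [Field L'] [Algebra k L']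

/-- the map of points along a `k`-homomorphism -/
def pa (σ : L →ₐ[k] L') : (Cv L a b).Point →+ (Cv L' a b).Point :=
  pm (σ : L →+* L') (σ.commutes a) (σ.commutes b)

theorem pa_inj (σ : L →ₐ[k] L') : Function.Injective (pa (a := a) (b := b) σ) := pm_inj _ _ _

theorem nsg_pa (σ : L →ₐ[k] L') {x y : L} (h : (Cv L a b).Nonsingular x y) :
    (Cv L' a b).Nonsingular (σ x) (σ y) :=
  nsg_map (σ : L →+* L') (σ.commutes a) (σ.commutes b) h

theorem pa_some (σ : L →ₐ[k] L') {x y : L} (h : (Cv L a b).Nonsingular x y) :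
    pa σ (.some x y h) = .some (σ x) (σ y) (nsg_pa σ h) :=
  pm_some _ _ _ h

theorem xp_pa (σ : L →ₐ[k] L') (P : (Cv L a b).Point) : xp (pa σ P) = σ (xp P) := (xp_pm _ _ _ P).1

theorem zp_pa (σ : L →ₐ[k] L') (P : (Cv L a b).Point) : zp (pa σ P) = σ (zp P) := (xp_pm _ _ _ P).2

theorem Rp.map (σ : L →ₐ[k] L') {t : L} {P : (Cv L a b).Point} {f g : k[X]} (h : Rp t P f g) :
    Rp (σ t) (pa σ P) f g := by
  obtain ⟨hc, ρ, hρ, hx, hz⟩ := h
  refine ⟨hc, σ ρ, (map_ne_zero σ).2 hρ, ?_, ?_⟩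
  · rw [xp_pa, hx, aeval_algHom_apply, map_mul]
  · rw [zp_pa, hz, aeval_algHom_apply, map_mul]

end Vale.Agent.P004M.TE
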