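import Vale.Agent.P004M.TE.Red
import Vale.Agent.P027M.K.Tate
import Vale.Agent.P022.H565.StG

/-!
The 2-adic Tate module of `y² = x³ + a x + b` as a representation of `G_ℚ`: continuity, oddness,
the action of inertia and of Frobenius at a good prime.
-/

set_option linter.all false

open scoped Classical

noncomputable section

namespace Vale.Agent.P004M.TE

open WeierstrassCurve.Affine Vale.Agent.P004H.H666 NumberField P027M.K P025H816 Vale.Agent.P022

theorem mat_ch {R : Type*} [CommRing R] [IsDomain R] {M : Matrix (Fin 2) (Fin 2) R} {s q : R}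
    (h : M * M + s • M + q • (1 : Matrix (Fin 2) (Fin 2) R) = 0) :
    (M.trace = -s ∧ M.det = q) ∨ M = M 0 0 • (1 : Matrix (Fin 2) (Fin 2) R) := by
  have h00 := congrFun (congrFun h 0) 0
  have h01 := congrFun (congrFun h 0) 1
  have h10 := congrFun (congrFun h 1) 0
  have h11 := congrFun (congrFun h 1) 1
  simp only [Matrix.add_apply, Matrix.mul_apply, Fin.sum_univ_two, Matrix.smul_apply, smul_eq_mul,
    Matrix.one_apply_eq, Matrix.zero_apply, Matrix.one_apply_ne, ne_eq, zero_ne_one, one_ne_zero,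
    not_false_eq_true] at h00 h01 h10 h11
  by_cases ht : M 0 0 + M 1 1 + s = 0
  · rw [Matrix.trace_fin_two, Matrix.det_fin_two]
    exact Or.inl ⟨by linear_combination ht, by linear_combination M 0 0 * ht - h00⟩
  · have e1 : M 0 1 = 0 := mul_left_cancel₀ ht (by linear_combination h01)
    have e2 : M 1 0 = 0 := mul_left_cancel₀ ht (by linear_combination h10)
    have e3 : M 1 1 = M 0 0 := mul_left_cancel₀ ht (by linear_combination h11 - h00)
    refine Or.inr (Matrix.ext fun i j => ?_)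
    fin_cases i <;> fin_cases j <;> simp [e1, e2, e3]

variable {a b : ℚ}

theorem ga_mul (g h : GQ) (P : (Cv Qb a b).Point) : ga (g * h) P = ga g (ga h P) := by
  rcases P with _ | ⟨x, y, h'⟩
  · change ga (g * h) 0 = ga g (ga h 0)
    simp
  · rw [ga_some, ga_some, ga_some]; rfl

theorem ga_one (P : (Cv Qb a b).Point) : ga 1 P = P := by
  rcases P with _ | ⟨x, y, h'⟩
  · exact map_zero _
  · rw [ga_some]; rfl

theorem xp_ga (g : GQ) (P : (Cv Qb a b).Point) : xp (ga g P) = g (xp P) := xp_pa _ P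

theorem open_fix (g₀ : GQ) (x : Qb) : IsOpen {g : GQ | g x = g₀ x} := by
  have : Algebra.IsIntegral ℚ Qb := (AlgebraicClosure.isAlgebraic ℚ).isIntegral
  have h := (stabilizer_isOpen_of_isIntegral (K := ℚ) x).preimage (continuous_const_mul g₀⁻¹)
  convert h using 1
  ext g
  change g x = g₀ x ↔ g₀.symm (g x) = x
  exact (AlgEquiv.symm_apply_eq g₀).symm

theorem ev_ga (g₀ : GQ) (P : (Cv Qb a b).Point) : ∀ᶠ g in nhds g₀, ga g P = ga g₀ P := by
  rcases P with _ | ⟨x, y, h⟩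
  · exact Filter.Eventually.of_forall fun g => (map_zero _).trans (map_zero _).symm
  · filter_upwards [(open_fix g₀ x).mem_nhds rfl, (open_fix g₀ y).mem_nhds rfl] with g h1 h2
    rw [ga_some, ga_some]
    simp only [show g x = g₀ x from h1, show g y = g₀ y from h2]

variable (a b) in
/-- the Tate module -/
abbrev Tm := TM 2 (Cv Qb a b).Point

variable (a b) in
/-- the action on the Tate module -/
def rho : GQ →* Module.End ℤ_[2] (Tm a b) where
  toFun g := TM.map 2 (ga g)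
  map_one' := LinearMap.ext fun x => TM.ext fun r => ga_one _
  map_mul' g h := LinearMap.ext fun x => TM.ext fun r => ga_mul g h _

theorem cp_rho (g : GQ) (x : Tm a b) (r : ℕ) : TM.cp r (rho a b g x) = ga g (TM.cp r x) := rfl

variable (hD : 4 * a ^ 3 + 27 * b ^ 2 ≠ 0)
include hD

theorem hdiv (r : ℕ) (y : (Cv Qb a b).Point) (_ : 2 ^ r • y = 0) : ∃ z, 2 • z = y :=
  dbl_surj two_ne_zero hD y

theorem card_pow (n : ℕ) : Nat.card (tors (Cv Qb a b).Point (2 ^ n)) = (2 ^ n) ^ 2 := by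
  induction n with
  | zero =>
    have : Unique (tors (Cv Qb a b).Point (2 ^ 0)) :=
      ⟨⟨0⟩, fun x => Subtype.ext ((one_smul ℕ x.1).symm.trans x.2)⟩
    exact Nat.card_unique
  | succ n ih =>
    rw [pow_succ 2 n, card_tors_mul fun y _ => dbl_surj two_ne_zero hD y, ih, mul_pow]
    exact congrArg _ (card_two two_ne_zero hD)

theorem exists_bs : Nonempty (Module.Basis (Fin 2) ℤ_[2] (Tm a b)) := by
  have hc : Nat.card (tors (Cv Qb a b).Point 2) = 2 ^ 2 := card_two two_ne_zero hD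
  have : Module.Finite ℤ_[2] (Tm a b) :=
    TM.finite (hdiv hD) (Nat.finite_of_card_ne_zero (by rw [hc]; norm_num))
  exact ⟨Module.finBasisOfFinrankEq _ _ (TM.finrank_eq (hdiv hD) hc)⟩

/-- a basis -/
def bs : Module.Basis (Fin 2) ℤ_[2] (Tm a b) := (exists_bs hD).some

/-- the matrices -/
def mt : GQ →* Matrix (Fin 2) (Fin 2) ℤ_[2] :=
  (LinearMap.toMatrixAlgEquiv (bs hD) : Module.End ℤ_[2] (Tm a b) →* _).comp (rho a b)

theorem mt_eq (g : GQ) : mt hD g = LinearMap.toMatrixAlgEquiv (bs hD) (rho a b g) := rfl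

theorem mt_apply (g : GQ) (i j : Fin 2) : mt hD g i j = (bs hD).repr (rho a b g (bs hD j)) i :=
  LinearMap.toMatrixAlgEquiv_apply _ _ _ _

/-- the representation -/
def rep : GQ →* GL (Fin 2) ℚ_[2] :=
  (((algebraMap ℤ_[2] ℚ_[2]).mapMatrix (m := Fin 2)).toMonoidHom.comp (mt hD)).toHomUnits

theorem rep_val (g : GQ) :
    (rep hD g : Matrix (Fin 2) (Fin 2) ℚ_[2]) = (algebraMap ℤ_[2] ℚ_[2]).mapMatrix (mt hD g) := rfl

theorem cont_mt (i j : Fin 2) : Continuous fun g => mt hD g i j := by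
  refine continuous_iff_continuousAt.2 fun g₀ => Metric.continuousAt_iff'.2 fun ε hε => ?_
  obtain ⟨n, hn⟩ := PadicInt.exists_pow_neg_lt 2 hε
  filter_upwards [ev_ga g₀ (TM.cp n (bs hD j))] with g hg
  obtain ⟨y, hy⟩ := (TM.cp_eq_zero_iff (x := rho a b g (bs hD j) - rho a b g₀ (bs hD j))
    (r := n)).1 (by rw [map_sub, cp_rho, cp_rho, hg, sub_self])
  rw [dist_eq_norm, mt_apply, mt_apply, ← Finsupp.sub_apply, ← map_sub, hy, map_smul,
    Finsupp.smul_apply, smul_eq_mul, norm_mul, PadicInt.norm_p_pow]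
  exact (mul_le_of_le_one_right (by positivity) (PadicInt.norm_le_one _)).trans_lt hn

theorem cont_rep : Continuous (rep hD) := by
  have h : Continuous fun g => (rep hD g : Matrix (Fin 2) (Fin 2) ℚ_[2]) :=
    continuous_matrix fun i j => continuous_subtype_val.comp (cont_mt hD i j)
  refine Units.continuous_iff.2 ⟨h, ?_⟩
  simp only [← map_inv]
  exact h.comp continuous_inv

theorem scal {g : GQ} {c : ℤ_[2]} (h : mt hD g = c • (1 : Matrix (Fin 2) (Fin 2) ℤ_[2])) {n : ℕ}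
    {y : (Cv Qb a b).Point} (hy : 2 ^ n • y = 0) : ga g y = ap c n • y := by
  have e : rho a b g = c • (1 : Module.End ℤ_[2] (Tm a b)) :=
    (LinearMap.toMatrixAlgEquiv (bs hD)).injective (by rw [← mt_eq, h, map_smul, map_one])
  obtain ⟨x, rfl⟩ := TM.exists_cp (hdiv hD) hy
  rw [← cp_rho, e]
  rfl

theorem not_pm {c : GQ} (hc : St.IsConj c)
    (h : ∀ y : (Cv Qb a b).Point, 2 ^ 2 • y = 0 → ga c y = y ∨ ga c y = -y) : False := by
  obtain ⟨φ, hφ⟩ := hc
  have re : ∀ y : (Cv Qb a b).Point, 2 ^ 2 • y = 0 → ∃ t : ℝ, φ (xp y) = t := by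
    intro y hy
    have e : c (xp y) = xp y := by
      rw [← xp_ga]
      rcases h y hy with e | e <;> rw [e]
      exact xp_neg y
    exact Complex.conj_eq_iff_real.1 (by rw [← hφ, e])
  have key : ∀ e : Qb, e ^ 3 + algebraMap ℚ Qb a * e + algebraMap ℚ Qb b = 0 →
      ∃ s t : ℝ, φ e = s ∧ φ (3 * e ^ 2 + algebraMap ℚ Qb a) = (t ^ 2 : ℝ) := by
    intro e he
    have hn : (Cv Qb a b).Nonsingular e 0 := nsg_cv two_ne_zero hD (by rw [he]; ring)
    have h2 := (two_tors two_ne_zero hn).2 rfl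
    obtain ⟨Q, hQ⟩ := dbl_surj two_ne_zero hD (.some e 0 hn)
    obtain ⟨s, hs⟩ := re (.some e 0 hn) (by rw [sq, mul_smul, h2]; exact nsmul_zero 2)
    obtain ⟨t, ht⟩ := re Q (by rw [sq, mul_smul, hQ, h2])
    refine ⟨s, t - s, hs, ?_⟩
    rw [← half_x two_ne_zero hQ, map_pow, map_sub, ht, show φ e = s from hs]
    push_cast
    ring
  obtain ⟨e₁, e₂, e₃, h12, h13, h23, hs, ha, hb⟩ := three_roots (L := Qb) two_ne_zero hD
  obtain ⟨s₁, t₁, u₁, v₁⟩ := key e₁ (by rw [ha, hb]; linear_combination e₁ ^ 2 * hs)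
  obtain ⟨s₂, t₂, u₂, v₂⟩ := key e₂ (by rw [ha, hb]; linear_combination e₂ ^ 2 * hs)
  obtain ⟨s₃, t₃, u₃, v₃⟩ := key e₃ (by rw [ha, hb]; linear_combination e₃ ^ 2 * hs)
  have e : (3 * e₁ ^ 2 + algebraMap ℚ Qb a) * (3 * e₂ ^ 2 + algebraMap ℚ Qb a) *
      (3 * e₃ ^ 2 + algebraMap ℚ Qb a) = -((e₁ - e₂) * (e₁ - e₃) * (e₂ - e₃)) ^ 2 := by
    rw [ha, show e₃ = -e₁ - e₂ by linear_combination hs]; ring
  have e' := congrArg φ e
  rw [map_mul, map_mul, v₁, v₂, v₃, map_neg, map_pow, map_mul, map_mul, map_sub, map_sub, map_sub,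
    u₁, u₂, u₃] at e'
  have e2 : (t₁ * t₂ * t₃) ^ 2 = -((s₁ - s₂) * (s₁ - s₃) * (s₂ - s₃)) ^ 2 := by
    rw [mul_pow, mul_pow]; exact_mod_cast e'
  have ne : ∀ {x y : Qb} {s t : ℝ}, φ x = s → φ y = t → x ≠ y → s - t ≠ 0 := fun hx hy h h' =>
    h (φ.injective (by rw [hx, hy, sub_eq_zero.1 h']))
  have := pow_pos (sq_pos_of_ne_zero (mul_ne_zero (mul_ne_zero (ne u₁ u₂ h12) (ne u₁ u₃ h13))
    (ne u₂ u₃ h23))) 1
  nlinarith [sq_nonneg (t₁ * t₂ * t₃)]

theorem conj_sq {c : GQ} (h : St.IsConj c) : c * c = 1 := by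
  obtain ⟨φ, hφ⟩ := h
  refine AlgEquiv.ext fun x => φ.injective ?_
  rw [AlgEquiv.mul_apply, hφ, hφ, starRingEnd_self_apply]
  rfl

theorem conj_ne {c : GQ} (hc : St.IsConj c) (ε : ℤ_[2]) (hε : ε = 1 ∨ ε = -1) :
    mt hD c ≠ ε • (1 : Matrix (Fin 2) (Fin 2) ℤ_[2]) := by
  intro h
  refine not_pm hD hc fun y hy => ?_
  obtain ⟨x, rfl⟩ := TM.exists_cp (hdiv hD) hy
  rw [scal hD h hy, ← TM.cp_smul]
  rcases hε with rfl | rfl
  · exact Or.inl (by rw [one_smul])
  · exact Or.inr (by rw [neg_smul, one_smul, map_neg])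

theorem det_conj {c : GQ} (hc : St.IsConj c) : (mt hD c).det = -1 := by
  have h1 : mt hD c * mt hD c = 1 := by rw [← map_mul, conj_sq hD hc, map_one]
  rcases mat_ch (M := mt hD c) (s := 0) (q := -1) (by rw [h1]; simp) with h | h
  · exact h.2
  · refine absurd h (conj_ne hD hc _ (mul_self_eq_one_iff.1 ?_))
    rw [h] at h1
    simpa using congrFun (congrFun h1 0) 0

theorem odd_rep : St.OddRep (rep hD) := fun c hc => by
  rw [rep_val, ← RingHom.map_det, det_conj hD hc, map_neg, map_one]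

omit hD in
theorem inj_tors {G H : Type*} [AddCommGroup G] [AddCommGroup H] {f : G →+ H}
    (h : ∀ Q, 2 • Q = 0 → f Q = 0 → Q = 0) (n : ℕ) {y : G} (hy : 2 ^ n • y = 0) (h0 : f y = 0) :
    y = 0 := by
  induction n with
  | zero => rwa [pow_zero, one_smul] at hy
  | succ n ih =>
    exact ih (h _ (by rwa [← mul_smul, ← pow_succ']) (by rw [map_nsmul, h0, smul_zero]))

end Vale.Agent.P004M.TE

namespace Vale.Agent.P004M.TE

open WeierstrassCurve.Affine Vale.Agent.P004H.H666 NumberField P027M.K P025H816 Vale.Agent.P022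

variable {A B : ℤ} (hD : 4 * (A : ℚ) ^ 3 + 27 * (B : ℚ) ^ 2 ≠ 0) {l : ℕ} [hl : Fact l.Prime]
  (hg : ¬ (l : ℤ) ∣ 2 * (4 * A ^ 3 + 27 * B ^ 2))
include hg

theorem char_ne : ringChar (ZMod l) ≠ 2 := by
  rw [ZMod.ringChar_zmod_n]
  rintro rfl
  exact hg (dvd_mul_right _ _)

theorem disc_ne : 4 * (A : ZMod l) ^ 3 + 27 * (B : ZMod l) ^ 2 ≠ 0 := fun h =>
  hg (Dvd.dvd.mul_left ((ZMod.intCast_zmod_eq_zero_iff_dvd _ l).1 (by push_cast; exact h)) _)

theorem cs_le : cs (A : ZMod l) (B : ZMod l) ^ 2 ≤ 4 * l := by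
  have := @hasse_char (ZMod l) _ _ (Classical.decEq _) _ _ (char_ne hg) (disc_ne hg)
  rw [ZMod.card] at this
  exact this

theorem unr_rep : St.UnrAt (rep hD) l := by
  intro P hP h g h4
  obtain ⟨κ, _, _, _, rd, h1, h2, -⟩ := exists_rd hg hP h
  have e : rho (A : ℚ) (B : ℚ) g = 1 := LinearMap.ext fun x => TM.ext fun r => by
    rw [cp_rho, Module.End.one_apply, ← sub_eq_zero]
    refine inj_tors h1 r ?_ (by rw [map_sub, h2 g h4, sub_self])
    rw [nsmul_sub, ← map_nsmul, TM.pow_smul_cp, map_zero, sub_zero]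
  exact Units.ext (by rw [rep_val, mt_eq, e, map_one, map_one, Units.val_one])

theorem frob_mt {g : GQ} (h : St.IsFrob l g) :
    (mt hD g).trace = -(cs (A : ZMod l) (B : ZMod l) : ℤ_[2]) ∧ (mt hD g).det = l := by
  obtain ⟨P, hP, h, h4⟩ := h
  obtain ⟨κ, _, _, _, rd, h1, -, h2⟩ := exists_rd hg hP h
  set S := cs (A : ZMod l) (B : ZMod l) with hS
  have e : rho (A : ℚ) (B : ℚ) g * rho (A : ℚ) (B : ℚ) g + S • rho (A : ℚ) (B : ℚ) g +
      (l : ℤ) • (1 : Module.End ℤ_[2] (Tm A B)) = 0 := LinearMap.ext fun x => TM.ext fun r => by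
    rw [LinearMap.zero_apply, map_zero]
    refine inj_tors h1 r (TM.pow_smul_cp _ r) ?_
    have := frob_ch (char_ne hg) (disc_ne hg) (rd (TM.cp r x))
    rw [ZMod.card] at this
    simpa only [LinearMap.add_apply, LinearMap.smul_apply, Module.End.mul_apply,
      Module.End.one_apply, map_add, map_zsmul, cp_rho, h2 g h4] using this
  have e' := congrArg (LinearMap.toMatrixAlgEquiv (bs hD)) e
  rw [map_add, map_add, map_mul, map_zsmul, map_zsmul, map_one, map_zero, ← mt_eq,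
    ← Int.cast_smul_eq_zsmul ℤ_[2], ← Int.cast_smul_eq_zsmul ℤ_[2], Int.cast_natCast] at e'
  refine (mat_ch e').resolve_right fun hs => ?_
  have hH : S ^ 2 ≤ 4 * l := cs_le hg
  have hl2 : (2 : ℤ) ≤ l := by exact_mod_cast hl.out.two_le
  obtain ⟨m, hm⟩ : ∃ m : ℕ, 2 * |S| + 4 * l < 2 ^ m := by
    refine ⟨(2 * |S| + 4 * l).toNat, ?_⟩
    have := Nat.lt_two_pow_self (n := (2 * |S| + 4 * l).toNat)
    have h5 : ((2 * |S| + 4 * l).toNat : ℤ) = 2 * |S| + 4 * l := Int.toNat_of_nonneg (by positivity)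
    rw [← h5]
    exact_mod_cast this
  obtain ⟨n, hn, hy⟩ : ∃ n : ℤ, 2 * |n| ≤ 2 ^ m ∧ ∀ y : Pt A B, 2 ^ m • y = 0 → ga g y = n • y := by
    have h5 : (ap (mt hD g 0 0) m : ℤ) < 2 ^ m := by exact_mod_cast ZMod.val_lt _
    by_cases h6 : 2 * (ap (mt hD g 0 0) m : ℤ) ≤ 2 ^ m
    · exact ⟨_, by rwa [Nat.abs_cast], fun y hy => by rw [scal hD hs hy, natCast_zsmul]⟩
    · refine ⟨ap (mt hD g 0 0) m - (2 ^ m : ℕ), ?_, fun y hy => ?_⟩
      · rw [abs_sub_comm, abs_of_nonneg] <;> push_cast <;> omega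
      · rw [scal hD hs hy, sub_smul, natCast_zsmul, natCast_zsmul, hy, sub_zero]
  have hG : n ^ 2 + S * n + Fintype.card (ZMod l) ≠ 0 := by
    rw [ZMod.card]
    intro h0
    have h5 : (2 * n + S) ^ 2 = S ^ 2 - 4 * l := by linear_combination 4 * h0
    have h6 : 2 * n + S = 0 := pow_eq_zero_iff two_ne_zero |>.1 (le_antisymm (by omega) (sq_nonneg _))
    have h7 : (l : ℤ) = n * n := by linear_combination h0 - n * h6
    exact hl.out.prime.not_isSquare ⟨n.natAbs, by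
      rw [← Int.natAbs_mul, ← h7, Int.natAbs_natCast]⟩
  have hfin : Finite (tors (Pt A B) (2 ^ m)) :=
    Nat.finite_of_card_ne_zero (by rw [card_pow hD]; positivity)
  have := Fintype.ofFinite (tors (Pt A B) (2 ^ m))
  have hk := ker_card (char_ne hg) (disc_ne hg) hG
    (Finset.univ.image fun y : tors (Pt A B) (2 ^ m) => rd y) (fun Q hQ => by
      obtain ⟨y, -, rfl⟩ := Finset.mem_image.1 hQ
      rw [← h2 g h4, hy y y.2, map_zsmul])
  rw [Finset.card_image_of_injective _ (fun y y' e => Subtype.ext (sub_eq_zero.1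
    (inj_tors h1 m (y - y').2 (by rw [map_sub, show rd y = rd y' from e, sub_self])))),
    Finset.card_univ, ← Nat.card_eq_fintype_card, card_pow hD, ZMod.card, ← hS] at hk
  push_cast at hk
  generalize (2 : ℤ) ^ m = N at hm hn hk
  have h5 : S * n ≤ |S| * |n| := by rw [← abs_mul]; exact le_abs_self _
  have h6 := abs_nonneg S
  have h7 := abs_nonneg n
  rw [← sq_abs n] at hk
  nlinarith

end Vale.Agent.P004M.TE
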