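import Vale.Agent.P004M.TE.Fr
import Vale.Agent.P179W.PtRed

/-!
Two-torsion, halving, and the reduction of the points of `y² = x³ + A x + B` at a prime of `ℚ̄`.
-/

set_option linter.all false

open scoped Classical

noncomputable section

namespace Vale.Agent.P004M.TE

open Polynomial WeierstrassCurve.Affine Vale.Agent.P004H.H666 NumberField IsDedekindDomain

section tors
variable {k : Type} [Field k] {L : Type} [Field L] [Algebra k L] {a b : k}

theorem two_L (h2 : (2 : k) ≠ 0) : (2 : L) ≠ 0 := fun e =>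
  h2 ((algebraMap k L).injective (by rw [map_ofNat, e, map_zero]))

theorem dbl (h2 : (2 : k) ≠ 0) {x y : L} (h : (Cv L a b).Nonsingular x y) : ∃ μ : L, μ ≠ 0 ∧
    xp (2 • Point.some x y h) = μ * ((x ^ 2 - algebraMap k L a) ^ 2 - 8 * algebraMap k L b * x) ∧
    zp (2 • Point.some x y h) = μ * (4 * y ^ 2) := by
  obtain ⟨μ, hμ, e1, e2, -⟩ := rl_double (two_L h2) h
  rw [two_smul]
  exact ⟨μ, hμ, by linear_combination e1, by linear_combination e2 - 4 * μ * eqn h⟩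

theorem two_tors (h2 : (2 : k) ≠ 0) {x y : L} (h : (Cv L a b).Nonsingular x y) :
    2 • Point.some x y h = 0 ↔ y = 0 := by
  obtain ⟨μ, hμ, -, e⟩ := dbl h2 h
  constructor
  · intro h0
    rw [h0, zp_zero] at e
    have h4 : (4 : L) ≠ 0 := by
      rw [show (4 : L) = 2 * 2 by norm_num]; exact mul_ne_zero (two_L h2) (two_L h2)
    exact pow_eq_zero_iff two_ne_zero |>.1 ((mul_eq_zero.1 ((mul_eq_zero.1 e.symm).resolve_left
      hμ)).resolve_left h4)
  · rintro rfl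
    exact eq_zero_of_zp (by rw [e]; ring)

theorem half_x (h2 : (2 : k) ≠ 0) {e : L} {h : (Cv L a b).Nonsingular e 0} {Q : (Cv L a b).Point}
    (hQ : 2 • Q = .some e 0 h) : (xp Q - e) ^ 2 = 3 * e ^ 2 + algebraMap k L a := by
  rcases Q with _ | ⟨x, y, h'⟩
  · exact absurd ((smul_zero 2).symm.trans hQ).symm (Point.some_ne_zero _)
  obtain ⟨μ, hμ, e1, e2⟩ := dbl h2 h'
  rw [hQ, xp_some] at e1
  rw [hQ, zp_some] at e2
  have h3 : μ * ((x - e) ^ 2 - (3 * e ^ 2 + algebraMap k L a)) ^ 2 = 0 := by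
    linear_combination -e1 + e * e2 + 4 * μ * e * eqn h' - μ * (8 * x + 4 * e) * eqn h
  exact sub_eq_zero.1 (pow_eq_zero_iff two_ne_zero |>.1 ((mul_eq_zero.1 h3).resolve_left hμ))

variable [IsAlgClosed L] (h2 : (2 : k) ≠ 0) (hD : 4 * a ^ 3 + 27 * b ^ 2 ≠ 0)
include h2 hD

theorem dbl_surj (P : (Cv L a b).Point) : ∃ Q, 2 • Q = P := by
  rcases P with _ | ⟨x₀, y₀, h₀⟩
  · exact ⟨0, smul_zero 2⟩
  obtain ⟨x, hx⟩ := IsAlgClosed.exists_root (k := L) ((X ^ 2 - C (algebraMap k L a)) ^ 2 -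
    8 * C (algebraMap k L b) * X - 4 * C x₀ * (X ^ 3 + C (algebraMap k L a) * X +
      C (algebraMap k L b))) (by
    rw [show degree _ = (4 : ℕ) by compute_degree!]; norm_num)
  simp only [IsRoot.def, eval_sub, eval_mul, eval_add, eval_pow, eval_C, eval_X, eval_ofNat] at hx
  obtain ⟨y, h⟩ := exists_pt h2 hD x
  obtain ⟨μ, hμ, e1, e2⟩ := dbl h2 h
  have e3 : xp (2 • Point.some x y h) = x₀ * zp (2 • Point.some x y h) := by
    rw [e1, e2]; linear_combination μ * hx - 4 * μ * x₀ * eqn h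
  have h0 : 2 • Point.some x y h ≠ 0 := by
    intro e
    rw [e, xp_zero, zp_zero, mul_zero] at e3
    exact one_ne_zero e3
  have e4 : xp (2 • Point.some x y h) = xp (.some x₀ y₀ h₀) := by
    generalize 2 • Point.some x y h = S at e3 h0
    rcases S with _ | ⟨x₁, y₁, h₁⟩
    · exact absurd rfl h0
    · simpa using e3
  rcases xp_eq h0 (Point.some_ne_zero _) e4 with e | e
  · exact ⟨_, e⟩
  · exact ⟨-_, by rw [smul_neg, e, neg_neg]⟩

theorem three_roots : ∃ e₁ e₂ e₃ : L, e₁ ≠ e₂ ∧ e₁ ≠ e₃ ∧ e₂ ≠ e₃ ∧ e₁ + e₂ + e₃ = 0 ∧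
    algebraMap k L a = e₁ * e₂ + e₁ * e₃ + e₂ * e₃ ∧ algebraMap k L b = -(e₁ * e₂ * e₃) := by
  obtain ⟨e, he⟩ := IsAlgClosed.exists_root (k := L) (X ^ 3 + C (algebraMap k L a) * X +
      C (algebraMap k L b)) (by rw [show degree _ = (3 : ℕ) by compute_degree!]; norm_num)
  obtain ⟨e', he'⟩ := IsAlgClosed.exists_root (k := L) (X ^ 2 + C e * X +
      C (e ^ 2 + algebraMap k L a)) (by rw [show degree _ = (2 : ℕ) by compute_degree!]; norm_num)
  simp only [IsRoot.def, eval_mul, eval_add, eval_pow, eval_C, eval_X] at he he'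
  have ha : algebraMap k L a = e * e' + e * (-e - e') + e' * (-e - e') := by linear_combination he'
  have hb : algebraMap k L b = -(e * e' * (-e - e')) := by linear_combination he - e * he'
  have hD' : 4 * algebraMap k L a ^ 3 + 27 * algebraMap k L b ^ 2 ≠ 0 := fun h =>
    hD ((algebraMap k L).injective (by simpa only [map_add, map_mul, map_pow, map_ofNat, map_zero]))
  refine ⟨e, e', -e - e', fun h => hD' ?_, fun h => hD' ?_, fun h => hD' ?_, by ring, ha, hb⟩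
  · rw [ha, hb, h]; ring
  · rw [ha, hb, show e' = -2 * e by linear_combination h]; ring
  · rw [ha, hb, show e = -2 * e' by linear_combination h]; ring

theorem card_two : Nat.card {P : (Cv L a b).Point // 2 • P = 0} = 2 ^ 2 := by
  obtain ⟨e₁, e₂, e₃, h12, h13, h23, hs, ha, hb⟩ := three_roots (L := L) h2 hD
  have hf : ∀ x : L, x ^ 3 + algebraMap k L a * x + algebraMap k L b =
      (x - e₁) * (x - e₂) * (x - e₃) := fun x => by
    rw [ha, hb]; linear_combination x ^ 2 * hs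
  have n₁ : (Cv L a b).Nonsingular e₁ 0 := nsg_cv h2 hD (by rw [hf]; ring)
  have n₂ : (Cv L a b).Nonsingular e₂ 0 := nsg_cv h2 hD (by rw [hf]; ring)
  have n₃ : (Cv L a b).Nonsingular e₃ 0 := nsg_cv h2 hD (by rw [hf]; ring)
  have e : {P : (Cv L a b).Point | 2 • P = 0} =
      {0, Point.some e₁ 0 n₁, Point.some e₂ 0 n₂, Point.some e₃ 0 n₃} := by
    ext P
    simp only [Set.mem_setOf_eq, Set.mem_insert_iff, Set.mem_singleton_iff]
    constructor
    · intro h
      rcases P with _ | ⟨x, y, h'⟩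
      · exact Or.inl rfl
      obtain rfl := (two_tors h2 h').1 h
      have := eqn h'
      rw [hf, zero_pow two_ne_zero, eq_comm, mul_eq_zero, mul_eq_zero, sub_eq_zero, sub_eq_zero,
        sub_eq_zero] at this
      rcases this with (rfl | rfl) | rfl <;> simp
    · rintro (rfl | rfl | rfl | rfl)
      · exact smul_zero 2
      all_goals exact (two_tors h2 _).2 rfl
  refine (Nat.card_congr (Equiv.setCongr e)).trans ?_
  rw [Nat.card_coe_set_eq, Set.ncard_insert_of_notMem, Set.ncard_insert_of_notMem,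
    Set.ncard_insert_of_notMem, Set.ncard_singleton]
  · rfl
  · simpa using h23
  · simpa using ⟨h12, h13⟩
  · simp [(Point.some_ne_zero _).symm]

end tors

/-- the algebraic closure of `ℚ` -/
abbrev Qb := AlgebraicClosure ℚ
/-- its automorphisms -/
abbrev GQ := Qb ≃ₐ[ℚ] Qb

section val
variable {P : Ideal (𝓞 Qb)}

theorem dich (hP : P.IsPrime) {p : ℕ} (hp : p ≠ 0) (h : (p : 𝓞 Qb) ∈ P) (x : Qb) :
    ∃ s t : 𝓞 Qb, s ∉ P ∧ ((s : Qb) * x = t ∨ x * t = s) := by
  let K : IntermediateField ℚ Qb := IntermediateField.adjoin ℚ {x}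
  have hK : FiniteDimensional ℚ K := IntermediateField.adjoin.finiteDimensional
    ((AlgebraicClosure.isAlgebraic ℚ).isAlgebraic x).isIntegral
  have hN : NumberField K := NumberField.of_module_finite ℚ K
  let φ : 𝓞 K →+* 𝓞 Qb := RingOfIntegers.mapRingHom (algebraMap K Qb)
  let v : HeightOneSpectrum (𝓞 K) := ⟨P.comap φ, Ideal.comap_isPrime φ P, fun h1 => by
    have h2 : (p : 𝓞 K) ∈ P.comap φ := by
      rw [Ideal.mem_comap, map_natCast]
      exact h
    rw [h1, Ideal.mem_bot] at h2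
    exact hp (Nat.cast_eq_zero.mp h2)⟩
  obtain ⟨t, s, h1⟩ := v.exists_primeCompl_mul_eq_or_mul_eq (K := K)
    (IntermediateField.AdjoinSimple.gen ℚ x)
  refine ⟨φ s.1, φ t, s.2, h1.imp (fun h2 => ?_) fun h2 => ?_⟩
  · have h3 := congrArg (algebraMap K Qb) h2
    rw [map_mul, mul_comm] at h3
    exact h3
  · have h3 := congrArg (algebraMap K Qb) h2
    rw [map_mul] at h3
    exact h3

/-- the localisation at `P` -/
def loc (hP : P.IsPrime) : Subring Qb where
  carrier := {x | ∃ s t : 𝓞 Qb, s ∉ P ∧ (s : Qb) * x = t}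
  mul_mem' := by
    rintro x y ⟨s, t, h1, h2⟩ ⟨s', t', h3, h4⟩
    refine ⟨s * s', t * t', fun h => (hP.mem_or_mem h).elim h1 h3, ?_⟩
    change (s : Qb) * s' * (x * y) = t * t'
    rw [← h2, ← h4]
    ring
  one_mem' := ⟨1, 1, hP.one_notMem, mul_one _⟩
  add_mem' := by
    rintro x y ⟨s, t, h1, h2⟩ ⟨s', t', h3, h4⟩
    refine ⟨s * s', t * s' + s * t', fun h => (hP.mem_or_mem h).elim h1 h3, ?_⟩
    change (s : Qb) * s' * (x + y) = t * s' + s * t'
    rw [← h2, ← h4]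
    ring
  zero_mem' := ⟨1, 0, hP.one_notMem, mul_zero _⟩
  neg_mem' := by
    rintro x ⟨s, t, h1, h2⟩
    refine ⟨s, -t, h1, ?_⟩
    change (s : Qb) * (-x) = -t
    rw [← h2]
    ring

theorem lt_one (hP : P.IsPrime) {O : ValuationSubring Qb} (hO : ∀ x, x ∈ O ↔ x ∈ loc hP)
    {s t : 𝓞 Qb} {x : Qb} (hs : s ∉ P) (ht : t ∈ P) (h : (s : Qb) * x = t) :
    O.valuation x < 1 := by
  rw [← O.mem_nonunits_iff, O.mem_nonunits_iff_or]
  by_cases hx : x = 0
  · exact Or.inl hx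
  · refine Or.inr fun h1 => ?_
    obtain ⟨s', t', h2, h3⟩ := (hO _).mp h1
    have h4 : s * s' = t * t' := by
      apply RingOfIntegers.ext
      change (s : Qb) * s' = t * t'
      rw [← h, ← h3]
      field_simp
    exact (hP.mem_or_mem (h4 ▸ P.mul_mem_right t' ht)).elim hs h2

theorem exists_val (hP : P.IsPrime) {p : ℕ} (hp : p ≠ 0) (h : (p : 𝓞 Qb) ∈ P) :
    ∃ O : ValuationSubring Qb, O.valuation p < 1 ∧ ∀ (g : GQ) (e : ℕ), e ≠ 0 →
      (∀ x : 𝓞 Qb, g • x - x ^ e ∈ P) → ∀ z, (O.valuation (g z) ≤ 1 ↔ O.valuation z ≤ 1) ∧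
        (O.valuation z ≤ 1 → O.valuation (g z - z ^ e) < 1) := by
  have h1 : ∀ x : Qb, x ∈ loc hP ∨ x⁻¹ ∈ loc hP := by
    intro x
    obtain ⟨s, t, h2, h3 | h3⟩ := dich hP hp h x
    · exact Or.inl ⟨s, t, h2, h3⟩
    · by_cases hx : x = 0
      · exact Or.inl (hx ▸ (loc hP).zero_mem)
      · refine Or.inr ⟨s, t, h2, ?_⟩
        rw [← h3, mul_comm x, mul_inv_cancel_right₀ hx]
  have hO : ∀ x, x ∈ ValuationSubring.ofSubring (loc hP) h1 ↔ x ∈ loc hP := fun x => Iff.rfl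
  generalize ValuationSubring.ofSubring (loc hP) h1 = O at hO
  refine ⟨O, lt_one hP hO hP.one_notMem h (by simp), fun g e he h4 => ?_⟩
  have key : ∀ z, O.valuation z ≤ 1 → O.valuation (g z - z ^ e) < 1 := by
    intro x hx
    obtain ⟨s, t, h2, h3⟩ := (hO x).mp ((O.valuation_le_one_iff x).1 hx)
    have h6 : s ^ e ∉ P := fun h6 => h2 (hP.mem_of_pow_mem e h6)
    have h5 : g • s ∉ P := fun h7 => h6 (by simpa using P.sub_mem h7 (h4 s))
    refine lt_one hP hO (s := s ^ e * g • s) (t := s ^ e * (g • t - t ^ e) - t ^ e * (g • s - s ^ e))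
      (fun h7 => (hP.mem_or_mem h7).elim h6 h5)
      (P.sub_mem (P.mul_mem_left _ (h4 t)) (P.mul_mem_left _ (h4 s))) ?_
    have h7 := congrArg g h3
    rw [map_mul] at h7
    change (s : Qb) ^ e * g s * (g x - x ^ e) = s ^ e * (g t - t ^ e) - t ^ e * (g s - s ^ e)
    rw [← h7, ← h3]
    ring
  refine fun z => ⟨⟨fun hz => ?_, fun hz => ?_⟩, key z⟩
  · by_contra hc
    rw [not_le] at hc
    have hz0 : z ≠ 0 := by rintro rfl; simp at hc
    have h5 : O.valuation z⁻¹ < 1 := by rw [map_inv₀]; exact inv_lt_one_of_one_lt₀ hc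
    have h6 : O.valuation (g z⁻¹) < 1 := by
      rw [← sub_add_cancel (g z⁻¹) (z⁻¹ ^ e)]
      exact O.valuation.map_add_lt (key _ h5.le) (by rw [map_pow]; exact pow_lt_one₀ zero_le' h5 he)
    rw [map_inv₀, map_inv₀, inv_lt_one₀ (zero_lt_iff.2 ((_root_.map_ne_zero _).2
      ((_root_.map_ne_zero g).2 hz0)))] at h6
    exact absurd hz (not_le.2 h6)
  · rw [← sub_add_cancel (g z) (z ^ e)]
    exact O.valuation.map_add_le (key z hz).le (P179W.val_pow_le_one hz e)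

end val

/-- the points over `ℚ̄` -/
abbrev Pt (A B : ℤ) := (Cv Qb (A : ℚ) (B : ℚ)).Point

/-- the action of `G_ℚ` -/
def ga {a b : ℚ} (g : GQ) : (Cv Qb a b).Point →+ (Cv Qb a b).Point := pa (g : Qb →ₐ[ℚ] Qb)

theorem nsg_ga {a b : ℚ} (g : GQ) {x y : Qb} (h : (Cv Qb a b).Nonsingular x y) :
    (Cv Qb a b).Nonsingular (g x) (g y) := nsg_pa (g : Qb →ₐ[ℚ] Qb) h

theorem ga_some {a b : ℚ} (g : GQ) {x y : Qb} (h : (Cv Qb a b).Nonsingular x y) :
    ga g (.some x y h) = .some (g x) (g y) (nsg_ga g h) := pa_some _ h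

/-- **reduction at a good prime** -/
theorem exists_rd {A B : ℤ} {l : ℕ} [hl : Fact l.Prime]
    (hD : ¬ (l : ℤ) ∣ 2 * (4 * A ^ 3 + 27 * B ^ 2)) {P : Ideal (𝓞 Qb)} (hP : P.IsPrime)
    (h : (l : 𝓞 Qb) ∈ P) : ∃ (κ : Type) (_ : Field κ) (_ : IsAlgClosed κ) (_ : Algebra (ZMod l) κ)
      (rd : Pt A B →+ (Cv κ (A : ZMod l) (B : ZMod l)).Point),
      (∀ Q, 2 • Q = 0 → rd Q = 0 → Q = 0) ∧
      (∀ g : GQ, (∀ x : 𝓞 Qb, g • x - x ∈ P) → ∀ Q, rd (ga g Q) = rd Q) ∧
      ∀ g : GQ, (∀ x : 𝓞 Qb, g • x - x ^ l ∈ P) → ∀ Q, rd (ga g Q) = Fb (rd Q) := by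
  obtain ⟨O, hO, hg⟩ := exists_val hP hl.out.ne_zero h
  let κ := AlgebraicClosure (IsLocalRing.ResidueField O)
  let ρ : O →+* κ := (algebraMap _ κ).comp (IsLocalRing.residue O)
  let r : Qb → κ := fun z => if h : z ∈ O then ρ ⟨z, h⟩ else 0
  have hr : ∀ z (h : O.valuation z ≤ 1), r z = ρ ⟨z, (O.valuation_le_one_iff z).1 h⟩ :=
    fun z h => dif_pos ((O.valuation_le_one_iff z).1 h)
  have r0 : ∀ z, O.valuation z ≤ 1 → (r z = 0 ↔ O.valuation z < 1) := by
    intro z hz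
    rw [hr z hz, RingHom.comp_apply, map_eq_zero, IsLocalRing.residue_eq_zero_iff,
      ValuationSubring.valuation_lt_one_iff]
  have vi : ∀ n : ℤ, O.valuation (n : Qb) ≤ 1 := fun n =>
    (O.valuation_le_one_iff _).2 (intCast_mem O n)
  have ri : ∀ n : ℤ, r n = n := fun n => (hr _ (vi n)).trans (map_intCast ρ n)
  have hc : CharP κ l := (CharP.charP_iff_prime_eq_zero hl.out).2 (by
    have := (r0 _ hO.le).2 hO
    rwa [← Int.cast_natCast, ri, Int.cast_natCast] at this)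
  letI : Algebra (ZMod l) κ := ZMod.algebra κ l
  have eA : algebraMap ℚ Qb (A : ℚ) = A := map_intCast _ A
  have eB : algebraMap ℚ Qb (B : ℚ) = B := map_intCast _ B
  have hΔ : O.valuation (Cv Qb (A : ℚ) (B : ℚ)).Δ = 1 := by
    have e : (Cv Qb (A : ℚ) (B : ℚ)).Δ = ((-(2 ^ 3 * (2 * (4 * A ^ 3 + 27 * B ^ 2))) : ℤ) : Qb) := by
      simp only [WeierstrassCurve.Δ, WeierstrassCurve.b₂, WeierstrassCurve.b₄, WeierstrassCurve.b₆,
        WeierstrassCurve.b₈, eA, eB]
      push_cast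
      ring
    rw [e]
    refine le_antisymm (vi _) (not_lt.1 fun h1 => ?_)
    rw [← r0 _ (vi _), ri, CharP.intCast_eq_zero_iff κ l, dvd_neg] at h1
    have hp := Nat.prime_iff_prime_int.1 hl.out
    exact hD ((hp.dvd_or_dvd h1).elim (fun h => (hp.dvd_of_dvd_pow h).mul_right _) id)
  have v0 : O.valuation (0 : Qb) ≤ 1 := by simp
  have r00 : r 0 = 0 := (r0 0 v0).2 (by simp)
  obtain ⟨hy, h3, -⟩ := P179W.ptRed_holds Qb _ O.valuation (Cv Qb (A : ℚ) (B : ℚ))
    ⟨v0, v0, v0, (congrArg _ eA).trans_le (vi A), (congrArg _ eB).trans_le (vi B)⟩ hΔ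
  obtain ⟨-, hn, hadd⟩ := h3 κ r (Cv κ (A : ZMod l) (B : ZMod l))
    (by simpa using ri 1)
    (fun a b ha hb => by rw [hr a ha, hr b hb, hr _ (O.valuation.map_add_le ha hb), ← map_add]; rfl)
    (fun a b ha hb => by rw [hr a ha, hr b hb, hr _ (P179W.val_mul_le_one ha hb), ← map_mul]; rfl)
    r0 r00.symm r00.symm r00.symm
    ((map_intCast _ A).trans ((ri A).symm.trans (congrArg r eA.symm)))
    ((map_intCast _ B).trans ((ri B).symm.trans (congrArg r eB.symm)))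
  let rd : Pt A B →+ (Cv κ (A : ZMod l) (B : ZMod l)).Point := AddMonoidHom.mk' _ hadd
  have d1 : ∀ {x y} (h : (Cv Qb (A : ℚ) (B : ℚ)).Nonsingular x y) (hx : O.valuation x ≤ 1),
      rd (.some x y h) = .some (r x) (r y) (hn x y h.1 hx) :=
    fun h hx => (if_pos hx).trans (P179W.pt_of _)
  have d2 : ∀ {x y} (h : (Cv Qb (A : ℚ) (B : ℚ)).Nonsingular x y), ¬ O.valuation x ≤ 1 →
      rd (.some x y h) = 0 := fun h hx => if_neg hx
  have rg : ∀ (g : GQ) (e : ℕ), e ≠ 0 → (∀ x : 𝓞 Qb, g • x - x ^ e ∈ P) → ∀ z,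
      O.valuation z ≤ 1 → r (g z) = r z ^ e := by
    intro g e he h4 z hz
    obtain ⟨h5, h6⟩ := hg g e he h4 z
    have h7 := (r0 _ (h6 hz).le).2 (h6 hz)
    rw [hr _ (h6 hz).le] at h7
    rw [hr _ (h5.2 hz), hr _ hz, ← map_pow, ← sub_eq_zero, ← map_sub]
    exact h7
  refine ⟨κ, inferInstance, inferInstance, inferInstance, rd, fun Q h2 h0 => ?_, fun g h4 Q => ?_,
    fun g h4 Q => ?_⟩
  · rcases Q with _ | ⟨x, y, h'⟩
    · rfl
    obtain rfl := (two_tors two_ne_zero h').1 h2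
    rw [d1 h'] at h0
    · exact absurd h0 (Point.some_ne_zero _)
    by_contra hx
    rw [not_le] at hx
    have e : x ^ 3 = -(A * x + B) := by
      have := eqn h'
      rw [eA, eB] at this
      linear_combination -this
    have h5 : O.valuation (x ^ 3) ≤ O.valuation x := by
      rw [e, Valuation.map_neg]
      exact O.valuation.map_add_le (by simpa using P179W.val_mul_le (vi A) le_rfl)
        ((vi B).trans hx.le)
    rw [map_pow] at h5
    exact absurd (h5.trans_eq (pow_one _).symm) (not_le.2 (pow_lt_pow_right₀ hx (by norm_num)))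
  · rcases Q with _ | ⟨x, y, h'⟩
    · exact congrArg rd (map_zero (ga g))
    have h5 : ∀ x : 𝓞 Qb, g • x - x ^ 1 ∈ P := by simpa using h4
    rw [ga_some]
    by_cases hx : O.valuation x ≤ 1
    · rw [d1 h' hx, d1 _ ((hg g 1 one_ne_zero h5 x).1.2 hx)]
      simp only [rg g 1 one_ne_zero h5 x hx, rg g 1 one_ne_zero h5 y (hy x y h'.1 hx), pow_one]
    · rw [d2 h' hx, d2 _ fun h => hx ((hg g 1 one_ne_zero h5 x).1.1 h)]
  · rcases Q with _ | ⟨x, y, h'⟩
    · change rd (ga g 0) = Fb (rd 0)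
      simp
    have h0 := hl.out.ne_zero
    rw [ga_some]
    by_cases hx : O.valuation x ≤ 1
    · rw [d1 h' hx, d1 _ ((hg g l h0 h4 x).1.2 hx), Fb, pa_some]
      simp only [rg g l h0 h4 x hx, rg g l h0 h4 y (hy x y h'.1 hx),
        FiniteField.coe_frobeniusAlgHom, ZMod.card]
    · rw [d2 h' hx, d2 _ fun h => hx ((hg g l h0 h4 x).1.1 h), map_zero]

end Vale.Agent.P004M.TE
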