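import Vale.Agent.P179W.PtMap

/-!
The 2-isogeny with kernel `(e, 0)` is a homomorphism.
-/

set_option linter.all false

open scoped Classical

noncomputable section

namespace Vale.Agent.P004M.TE

open WeierstrassCurve WeierstrassCurve.Affine P179W

variable {F : Type} [Field F] {W W' : WeierstrassCurve.Affine F} {α β e : F}

/-- `W` is the curve `y² = (x - e)³ + α (x - e)² + β (x - e)` -/
structure Sh (W : WeierstrassCurve.Affine F) (α β e : F) : Prop where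
  a1 : W.a₁ = 0
  a2 : W.a₂ = α - 3 * e
  a3 : W.a₃ = 0
  a4 : W.a₄ = 3 * e ^ 2 - 2 * α * e + β
  a6 : W.a₆ = -e ^ 3 + α * e ^ 2 - β * e

theorem Sh.eqn (h : Sh W α β e) {x y : F} :
    W.Equation x y ↔ y ^ 2 = (x - e) ^ 3 + α * (x - e) ^ 2 + β * (x - e) := by
  rw [equation_iff, h.a1, h.a2, h.a3, h.a4, h.a6]
  constructor <;> intro h <;> linear_combination h

theorem Sh.negY (h : Sh W α β e) (x y : F) : W.negY x y = -y := by
  rw [Affine.negY, h.a1, h.a3]; ring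

theorem Sh.nsg (h : Sh W α β e) (h2 : (2 : F) ≠ 0) (hβ : β ≠ 0) (hd : α ^ 2 - 4 * β ≠ 0) {x y : F}
    (he : y ^ 2 = (x - e) ^ 3 + α * (x - e) ^ 2 + β * (x - e)) : W.Nonsingular x y := by
  refine nonsing_of_Δ (E := W) ?_ (h.eqn.2 he)
  have : W.Δ = 2 ^ 4 * β ^ 2 * (α ^ 2 - 4 * β) := by
    simp only [Δ, b₂, b₄, b₆, b₈, h.a1, h.a2, h.a3, h.a4, h.a6]
    ring
  rw [this]
  exact mul_ne_zero (mul_ne_zero (pow_ne_zero _ h2) (pow_ne_zero _ hβ)) hd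

/-- three points on a line -/
theorem col (a1 : W.a₁ = 0) (a3 : W.a₃ = 0) {x₁ y₁ x₂ y₂ x₃ y₃ l n : F} (h₁ : W.Nonsingular x₁ y₁)
    (h₂ : W.Nonsingular x₂ y₂) (h₃ : W.Nonsingular x₃ y₃) (e₁ : y₁ = l * x₁ + n)
    (e₂ : y₂ = l * x₂ + n) (e₃ : y₃ = l * x₃ + n) (s1 : x₁ + x₂ + x₃ = l ^ 2 - W.a₂)
    (s2 : x₁ * x₂ + x₁ * x₃ + x₂ * x₃ = W.a₄ - 2 * l * n) :
    Point.some x₁ y₁ h₁ + Point.some x₂ y₂ h₂ = -Point.some x₃ y₃ h₃ := by
  have hd : x₁ = x₂ → 3 * x₁ ^ 2 + 2 * W.a₂ * x₁ + W.a₄ = l * (2 * y₁) := by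
    rintro rfl
    linear_combination 2 * x₁ * s1 - s2 - 2 * l * e₁
  have hxy : ¬ (x₁ = x₂ ∧ y₁ = W.negY x₂ y₂) := by
    rintro ⟨hx, hy⟩
    have h0 : 2 * y₁ = 0 := by
      rw [Affine.negY, a1, a3, e₂, ← hx, ← e₁] at hy
      linear_combination hy
    rcases ((nonsingular_iff' x₁ y₁).1 h₁).2 with h | h
    · exact h (by rw [a1, hd hx, h0]; ring)
    · exact h (by rw [a1, a3]; linear_combination h0)
  have hl : W.slope x₁ x₂ y₁ y₂ = l := by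
    by_cases hx : x₁ = x₂
    · have hy : y₁ ≠ W.negY x₂ y₂ := fun h => hxy ⟨hx, h⟩
      rw [slope_of_Y_ne hx hy, div_eq_iff, Affine.negY, a1, a3]
      · linear_combination hd hx
      · rw [← hx, e₂, ← hx, ← e₁] at hy
        exact sub_ne_zero.2 hy
    · rw [slope_of_X_ne hx, div_eq_iff (sub_ne_zero.2 hx), e₁, e₂]
      ring
  have hX : W.addX x₁ x₂ (W.slope x₁ x₂ y₁ y₂) = x₃ := by
    rw [hl, addX, a1]; linear_combination -s1
  have hY : W.addY x₁ x₂ y₁ (W.slope x₁ x₂ y₁ y₂) = W.negY x₃ y₃ := by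
    rw [addY, negAddY, hX, hl, e₁, e₃]
    congr 1
    ring
  rw [Point.add_some hxy, Point.neg_some]
  simp only [hX, hY]

/-- the isogeny -/
def iso (β e : F) (W' : WeierstrassCurve.Affine F) : W.Point → W'.Point
  | .zero => 0
  | .some x y _ => if x = e then 0 else
      pt W' ((y / (x - e)) ^ 2) (y / (x - e) * (β / (x - e) - (x - e)))

theorem alg1 {z₁ z₂ z₃ l n : F} (h₁ : z₁ ≠ 0) (h₂ : z₂ ≠ 0) (hn : n ≠ 0)
    (s1 : z₁ + z₂ + z₃ = l ^ 2 - α) (s2 : z₁ * z₂ + z₁ * z₃ + z₂ * z₃ = β - 2 * l * n)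
    (s3 : z₁ * z₂ * z₃ = n ^ 2) :
    (l * z₁ + n) / z₁ * (β / z₁ - z₁) =
      (β / n - l) * ((l * z₁ + n) / z₁) ^ 2 + (α * l - n - β * l ^ 2 / n) := by
  obtain rfl : α = l ^ 2 - (z₁ + z₂ + z₃) := by linear_combination s1
  obtain rfl : β = z₁ * z₂ + z₁ * z₃ + z₂ * z₃ + 2 * l * n := by linear_combination -s2
  obtain rfl : z₃ = n ^ 2 / (z₁ * z₂) := by rw [← s3]; field_simp
  field_simp
  ring

theorem alg2 {z₁ z₂ z₃ l n : F} (h₁ : z₁ ≠ 0) (h₂ : z₂ ≠ 0) (hn : n ≠ 0)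
    (s1 : z₁ + z₂ + z₃ = l ^ 2 - α) (s2 : z₁ * z₂ + z₁ * z₃ + z₂ * z₃ = β - 2 * l * n)
    (s3 : z₁ * z₂ * z₃ = n ^ 2) :
    ((l * z₁ + n) / z₁) ^ 2 + ((l * z₂ + n) / z₂) ^ 2 + ((l * z₃ + n) / z₃) ^ 2 =
      (β / n - l) ^ 2 + 2 * α ∧
    ((l * z₁ + n) / z₁) ^ 2 * ((l * z₂ + n) / z₂) ^ 2 +
      ((l * z₁ + n) / z₁) ^ 2 * ((l * z₃ + n) / z₃) ^ 2 +
      ((l * z₂ + n) / z₂) ^ 2 * ((l * z₃ + n) / z₃) ^ 2 =
      α ^ 2 - 4 * β - 2 * (β / n - l) * (α * l - n - β * l ^ 2 / n) := by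
  obtain rfl : α = l ^ 2 - (z₁ + z₂ + z₃) := by linear_combination s1
  obtain rfl : β = z₁ * z₂ + z₁ * z₃ + z₂ * z₃ + 2 * l * n := by linear_combination -s2
  obtain rfl : z₃ = n ^ 2 / (z₁ * z₂) := by rw [← s3]; field_simp
  constructor <;> field_simp <;> ring

theorem Sh.y_zero (h : Sh W α β e) {y : F} (h' : W.Nonsingular e y) : y = 0 :=
  pow_eq_zero_iff two_ne_zero |>.1 (by rw [h.eqn.1 h'.1]; ring)

theorem Sh.two (h : Sh W α β e) (hT : W.Nonsingular e 0) :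
    Point.some e 0 hT + Point.some e 0 hT = 0 :=
  Point.add_self_of_Y_eq (by rw [h.negY, neg_zero])

variable (h : Sh W α β e) (h2 : (2 : F) ≠ 0) (hβ : β ≠ 0) (hd : α ^ 2 - 4 * β ≠ 0)
include h h2 hβ hd

theorem add_T (hT : W.Nonsingular e 0) {x y : F} (h' : W.Nonsingular x y) (hx : x ≠ e) :
    ∃ h₃ : W.Nonsingular (e + β / (x - e)) (β * y / (x - e) ^ 2),
      Point.some x y h' + Point.some e 0 hT = -Point.some _ _ h₃ := by
  have he := h.eqn.1 h'.1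
  have hz := sub_ne_zero.2 hx
  have h₃ : W.Nonsingular (e + β / (x - e)) (β * y / (x - e) ^ 2) := h.nsg h2 hβ hd (by
    rw [add_sub_cancel_left, div_pow, mul_pow, he]
    field_simp
    ring)
  refine ⟨h₃, col h.a1 h.a3 (l := y / (x - e)) (n := -(y / (x - e) * e)) h' hT h₃ ?_ (by ring) ?_
    ?_ ?_⟩
  · field_simp
    ring
  · field_simp
    ring
  · rw [h.a2, div_pow, he]
    field_simp
    ring
  · have : 2 * (y / (x - e)) * -(y / (x - e) * e) = -(2 * e * (y ^ 2 / (x - e) ^ 2)) := by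
      rw [← div_pow]; ring
    rw [h.a4, this, he]
    field_simp
    ring

variable (h' : Sh W' (-2 * α) (α ^ 2 - 4 * β) 0)
include h'

theorem iso_nsg {x y : F} (h₁ : W.Nonsingular x y) (hx : x ≠ e) :
    W'.Nonsingular ((y / (x - e)) ^ 2) (y / (x - e) * (β / (x - e) - (x - e))) := by
  have hz := sub_ne_zero.2 hx
  refine h'.nsg h2 hd ?_ ?_
  · rw [show (-2 * α) ^ 2 - 4 * (α ^ 2 - 4 * β) = 2 ^ 4 * β by ring]
    exact mul_ne_zero (pow_ne_zero _ h2) hβ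
  · rw [mul_pow, div_pow, h.eqn.1 h₁.1]
    field_simp
    ring

theorem iso_some {x y : F} (h₁ : W.Nonsingular x y) (hx : x ≠ e) :
    iso β e W' (.some x y h₁) = .some _ _ (iso_nsg h h2 hβ hd h' h₁ hx) :=
  (if_neg hx).trans (pt_of _)

theorem iso_neg (P : W.Point) : iso β e W' (-P) = -iso β e W' P := by
  rcases P with _ | ⟨x, y, h₁⟩
  · rfl
  rw [Point.neg_some]
  by_cases hx : x = e
  · exact (if_pos hx).trans (by rw [show iso β e W' (.some x y h₁) = 0 from if_pos hx, neg_zero])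
  · rw [iso_some h h2 hβ hd h' _ hx, iso_some h h2 hβ hd h' _ hx, Point.neg_some]
    simp only [h.negY, h'.negY, neg_div, neg_sq, neg_mul]

theorem iso_T (hT : W.Nonsingular e 0) (P : W.Point) :
    iso β e W' (P + .some e 0 hT) = iso β e W' P := by
  rcases P with _ | ⟨x, y, h₁⟩
  · exact (congrArg _ (zero_add _)).trans (if_pos rfl)
  by_cases hx : x = e
  · subst hx
    obtain rfl := h.y_zero h₁
    rw [h.two]
    exact (if_pos rfl).symm
  have hz := sub_ne_zero.2 hx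
  obtain ⟨h₃, e₃⟩ := add_T h h2 hβ hd hT h₁ hx
  rw [e₃, iso_neg h h2 hβ hd h', iso_some h h2 hβ hd h' _ hx, iso_some h h2 hβ hd h' h₃
    (by simpa using ⟨hβ, hz⟩), Point.neg_some]
  congr 1
  · rw [add_sub_cancel_left]
    field_simp
  · rw [h'.negY, add_sub_cancel_left]
    field_simp
    ring

theorem iso_add (P Q : W.Point) : iso β e W' (P + Q) = iso β e W' P + iso β e W' Q := by
  have hT : W.Nonsingular e 0 := h.nsg h2 hβ hd (by ring)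
  have i0 : iso β e W' (0 : W.Point) = 0 := rfl
  have iT : iso β e W' (.some e 0 hT) = 0 := if_pos rfl
  rcases P with _ | ⟨x₁, y₁, h₁⟩
  · exact (congrArg _ (zero_add _)).trans (zero_add _).symm
  rcases Q with _ | ⟨x₂, y₂, h₂⟩
  · exact (add_zero _).symm
  by_cases hx₁ : x₁ = e
  · subst hx₁
    obtain rfl := h.y_zero h₁
    rw [add_comm, iso_T h h2 hβ hd h', iT, zero_add]
  by_cases hx₂ : x₂ = e
  · subst hx₂
    obtain rfl := h.y_zero h₂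
    rw [iso_T h h2 hβ hd h', iT, add_zero]
  by_cases hxy : x₁ = x₂ ∧ y₁ = W.negY x₂ y₂
  · have e0 := Point.add_of_Y_eq (h₁ := h₁) (h₂ := h₂) hxy.1 hxy.2
    rw [e0, eq_neg_of_add_eq_zero_left e0, iso_neg h h2 hβ hd h', i0, neg_add_cancel]
  obtain ⟨l, n, x₃, hl, hx₃, e₁, e₂, e₃, s1, s2, s3⟩ := line_rel (E := W) h₁.1 h₂.1 hxy
  have h₃ : W.Nonsingular x₃ (l * x₃ + n) := by
    rw [← e₃, hx₃, hl]
    exact nonsingular_negAdd h₁ h₂ hxy
  simp only [h.a1, h.a3, zero_mul, add_zero, sub_zero] at s1 s2 s3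
  have e0 := col h.a1 h.a3 h₁ h₂ h₃ e₁ e₂ rfl s1 s2
  by_cases hx : x₃ = e
  · subst hx
    have e4 : Point.some x₂ y₂ h₂ = -Point.some x₁ y₁ h₁ + .some x₃ 0 hT := by
      rw [eq_neg_add_iff_add_eq, e0, neg_eq_iff_add_eq_zero]
      simp only [h.y_zero h₃]
      exact h.two hT
    rw [e4, iso_T h h2 hβ hd h', iso_neg h h2 hβ hd h', add_neg_cancel, add_neg_cancel_left, iT]
  have z₁ := sub_ne_zero.2 hx₁
  have z₂ := sub_ne_zero.2 hx₂
  have z₃ := sub_ne_zero.2 hx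
  rw [h.a2] at s1
  rw [h.a4] at s2
  rw [h.a6] at s3
  have t1 : x₁ - e + (x₂ - e) + (x₃ - e) = l ^ 2 - α := by linear_combination s1
  have t2 : (x₁ - e) * (x₂ - e) + (x₁ - e) * (x₃ - e) + (x₂ - e) * (x₃ - e) =
      β - 2 * l * (n + l * e) := by linear_combination s2 - 2 * e * s1
  have t3 : (x₁ - e) * (x₂ - e) * (x₃ - e) = (n + l * e) ^ 2 := by
    linear_combination s3 - e * s2 + e ^ 2 * s1
  have hn : n + l * e ≠ 0 := fun h0 =>
    mul_ne_zero (mul_ne_zero z₁ z₂) z₃ (by rw [t3, h0]; ring)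
  have u₁ : y₁ = l * (x₁ - e) + (n + l * e) := by rw [e₁]; ring
  have u₂ : y₂ = l * (x₂ - e) + (n + l * e) := by rw [e₂]; ring
  have u₃ : l * x₃ + n = l * (x₃ - e) + (n + l * e) := by ring
  obtain ⟨c1, c2⟩ := alg2 z₁ z₂ hn t1 t2 t3
  rw [e0, iso_neg h h2 hβ hd h', iso_some h h2 hβ hd h' _ hx₁, iso_some h h2 hβ hd h' _ hx₂,
    iso_some h h2 hβ hd h' _ hx]
  refine (col h'.a1 h'.a3 (l := β / (n + l * e) - l)
    (n := α * l - (n + l * e) - β * l ^ 2 / (n + l * e)) _ _ _ ?_ ?_ ?_ ?_ ?_).symm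
  · rw [u₁]; exact alg1 z₁ z₂ hn t1 t2 t3
  · rw [u₂]
    exact alg1 (z₃ := x₃ - e) z₂ z₁ hn (by linear_combination t1) (by linear_combination t2)
      (by linear_combination t3)
  · rw [u₃]
    exact alg1 (z₃ := x₂ - e) z₃ z₁ hn (by linear_combination t1) (by linear_combination t2)
      (by linear_combination t3)
  · rw [u₁, u₂, u₃, c1, h'.a2]; ring
  · rw [u₁, u₂, u₃, c2, h'.a4]; ring

end Vale.Agent.P004M.TE
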