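import Vale.Agent.P004M.TE.Tate
import Vale.Agent.P004M.TE.Iso

/-!
An elliptic curve over `ℚ` has no rational cyclic subgroup of order 64; the 2-adic representation is
absolutely irreducible.
-/

set_option linter.all false

open scoped Classical

noncomputable section

namespace Vale.Agent.P004M.TE

open WeierstrassCurve WeierstrassCurve.Affine P179W Vale.Agent.P004H.H666 P027M.K Vale.Agent.P022
  Matrix

theorem fermat_rat {w c : ℚ} (hw : w ≠ 0) : w ^ 4 + 2 ^ 4 ≠ c ^ 2 := by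
  intro h
  refine not_fermat_42 (a := w.num * c.den) (b := 2 * w.den * c.den)
    (c := c.num * w.den ^ 2 * c.den) (mul_ne_zero (Rat.num_ne_zero.2 hw) (by simp)) (by simp) ?_
  apply Int.cast_injective (α := ℚ)
  push_cast
  rw [← Rat.mul_den_eq_num w, ← Rat.mul_den_eq_num c]
  linear_combination (w.den : ℚ) ^ 4 * (c.den : ℚ) ^ 4 * h

theorem chain3 {A s₀ s₁ s₂ : ℚ} (h₀ : s₀ ≠ 0) (h₁ : s₁ ≠ 0) (e₁ : s₁ ^ 2 = 4 * s₀ * (A + 2 * s₀))
    (e₂ : s₂ ^ 2 = 4 * s₁ * (A + 6 * s₀ + 2 * s₁)) : (s₂ / s₁) ^ 2 * (s₁ / s₀) = (s₁ / s₀ + 4) ^ 2 := by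
  field_simp
  linear_combination s₀ * e₂ - s₁ * e₁

theorem no_chain {r₀ r₁ r₂ r₃ : ℚ} (h₀ : r₀ ≠ 0) (h₁ : r₁ ≠ 0) (h₂ : r₂ ≠ 0) (h₃ : r₃ ≠ 0)
    (h4 : r₀ ≠ 4) (e₀ : r₁ ^ 2 * r₀ = (r₀ + 4) ^ 2) (e₁ : r₂ ^ 2 * r₁ = (r₁ + 4) ^ 2)
    (e₂ : r₃ ^ 2 * r₂ = (r₂ + 4) ^ 2) : False := by
  have sq : ∀ {r r' : ℚ}, r ≠ 0 → r' ≠ 0 → r' ^ 2 * r = (r + 4) ^ 2 →
      ∃ v, v ≠ 0 ∧ r = v ^ 2 ∧ r' * v = v ^ 2 + 4 := by
    intro r r' h h' e
    have e1 : r = ((r + 4) / r') ^ 2 := by rw [div_pow, ← e]; field_simp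
    refine ⟨(r + 4) / r', fun h0 => h (by rw [e1, h0]; ring), e1, ?_⟩
    rw [← e1]
    field_simp
  obtain ⟨v₀, n₀, rfl, f₀⟩ := sq h₀ h₁ e₀
  obtain ⟨v₁, n₁, rfl, f₁⟩ := sq h₁ h₂ e₁
  obtain ⟨v₂, n₂, rfl, -⟩ := sq h₂ h₃ e₂
  refine fermat_rat (w := (v₀ ^ 2 - 4) / (v₀ * v₁ * v₂)) (c := v₂ ^ 2)
    (div_ne_zero (sub_ne_zero.2 h4) (mul_ne_zero (mul_ne_zero n₀ n₁) n₂)) ?_
  have g1 : ((v₀ ^ 2 - 4) / (v₀ * v₁ * v₂)) ^ 2 = (v₁ ^ 2 - 4) / v₁ := by
    field_simp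
    linear_combination -(v₁ ^ 2 * v₀ + v₀ ^ 2 + 4) * f₀ - v₀ ^ 2 * (v₁ ^ 2 - 4) * f₁
  have g2 : v₂ ^ 2 = (v₁ ^ 2 + 4) / v₁ := by rw [← f₁]; field_simp
  rw [show ∀ x : ℚ, x ^ 4 = (x ^ 2) ^ 2 from fun x => by ring, g1, g2]
  field_simp
  ring

/-- the rational numbers in `ℚ̄` -/
def KQ : Subfield Qb := (algebraMap ℚ Qb).fieldRange

theorem mem_KQ {z : Qb} : z ∈ KQ ↔ ∀ g : GQ, g z = z := by
  have : Algebra.IsAlgebraic ℚ Qb := AlgebraicClosure.isAlgebraic ℚ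
  have : IsAlgClosure ℚ Qb := ⟨inferInstance, inferInstance⟩
  have : IsGalois ℚ Qb := IsAlgClosure.isGalois ℚ Qb
  exact InfiniteGalois.mem_range_algebraMap_iff_fixed z

section act
variable {W W' : WeierstrassCurve.Affine Qb} {α β e : Qb}

theorem Sh.fix (h : Sh W α β e) (hα : α ∈ KQ) (hβ : β ∈ KQ) (he : e ∈ KQ) (g : GQ) :
    WeierstrassCurve.map W (g : Qb →+* Qb) = W := by
  ext <;> simp [h.a1, h.a2, h.a3, h.a4, h.a6, mem_KQ.1 hα g, mem_KQ.1 hβ g, mem_KQ.1 he g,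
    map_ofNat]

/-- the action on the points -/
def gw (g : GQ) (h : WeierstrassCurve.map W (g : Qb →+* Qb) = W) : W.Point →+ W.Point :=
  AddMonoidHom.mk' (ptFun g W) (ptMap_holds Qb Qb (g : Qb →+* Qb) W W h).1

theorem gw_some (g : GQ) (h : WeierstrassCurve.map W (g : Qb →+* Qb) = W) {x y : Qb}
    (h' : W.Nonsingular x y) : ∃ h'', gw g h (.some x y h') = .some (g x) (g y) h'' := by
  have h'' : W.Nonsingular (g x) (g y) := by
    have := (map_nonsingular W (g : Qb →+* Qb).injective x y).2 h'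
    rwa [show W.map (g : Qb →+* Qb) = W from h] at this
  exact ⟨h'', pt_of (E := W) h''⟩

end act

theorem cyc4 {G : Type*} [AddCommGroup G] (f : G →+ G) {P T : G} {n : ℕ} {m : ℤ}
    (hQ : n • P + n • P = T) (hT : T + T = 0) (hf : f P = m • P) (h0 : f T ≠ 0) :
    f (n • P) = n • P ∨ f (n • P) = -(n • P) := by
  have e1 : f (n • P) = m • n • P := by rw [map_nsmul, hf, smul_comm]
  generalize n • P = Q at hQ e1
  have t2 : (2 : ℤ) • T = 0 := by rw [two_smul, hT]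
  have t4 : (2 : ℤ) • Q = T := by rw [two_smul, hQ]
  obtain ⟨c, rfl | rfl⟩ := Int.even_or_odd' m
  · exact absurd (by rw [← hQ, map_add, e1, ← smul_add, hQ, mul_comm, mul_smul, t2, smul_zero]) h0
  rw [add_smul, mul_comm, mul_smul, t4, one_smul] at e1
  obtain ⟨d, rfl | rfl⟩ := Int.even_or_odd' c
  · exact Or.inl (by rw [e1, mul_comm, mul_smul, t2, smul_zero, zero_add])
  · refine Or.inr ?_
    rw [e1, add_smul, mul_comm, mul_smul, t2, smul_zero, zero_add, one_smul,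
      eq_neg_iff_add_eq_zero, add_assoc, hQ, hT]

/-- a rational cyclic subgroup of order `2 ^ (n + 1)` -/
def Cy (n : ℕ) (α β : Qb) : Prop :=
  ∃ (W : WeierstrassCurve.Affine Qb) (e : Qb) (P : W.Point) (hT : W.Nonsingular e 0),
    Sh W α β e ∧ α ∈ KQ ∧ β ∈ KQ ∧ e ∈ KQ ∧ β ≠ 0 ∧ α ^ 2 - 4 * β ≠ 0 ∧
      2 ^ n • P = .some e 0 hT ∧ ∀ g : GQ, ∃ m : ℤ, ptFun g W P = m • P

theorem Cy.step {n : ℕ} {α β : Qb} (h : Cy (n + 1) α β) :
    ∃ s ∈ KQ, s ≠ 0 ∧ s ^ 2 = β ∧ Cy n (α + 6 * s) (4 * s * (α + 2 * s)) := by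
  obtain ⟨W, e, P, hT, hS, hα, hβ, he, h0, hd, hP, hg⟩ := h
  have h2 : (2 : Qb) ≠ 0 := two_ne_zero
  have hQ : 2 ^ n • P + 2 ^ n • P = .some e 0 hT := by rw [← hP, pow_succ', mul_smul, two_smul]
  obtain ⟨x, y, h₁, eQ⟩ : ∃ x y h₁, 2 ^ n • P = .some x y h₁ := by
    generalize 2 ^ n • P = Q at hQ
    rcases Q with _ | ⟨x, y, h₁⟩
    · exact absurd ((add_zero _).symm.trans hQ).symm (Point.some_ne_zero _)
    · exact ⟨x, y, h₁, rfl⟩
  have hx : x ≠ e := by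
    rintro rfl
    obtain rfl := hS.y_zero h₁
    rw [eQ, hS.two] at hQ
    exact Point.some_ne_zero _ hQ.symm
  have hz := sub_ne_zero.2 hx
  have hs : (x - e) ^ 2 = β := by
    obtain ⟨h₃, e₃⟩ := add_T hS h2 h0 hd hT h₁ hx
    have e4 : Point.some x y h₁ + .some e 0 hT = -Point.some x y h₁ := by
      rw [eq_neg_iff_add_eq_zero, add_right_comm, ← eQ, hQ, hS.two]
    have e5 := (Point.some.inj (neg_injective (e4.symm.trans e₃))).1
    field_simp at e5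
    linear_combination e5
  have hxK : x ∈ KQ := mem_KQ.2 fun g => by
    obtain ⟨m, hm⟩ := hg g
    obtain ⟨h3, e3⟩ := gw_some g (hS.fix hα hβ he g) hT
    obtain ⟨h4, e4⟩ := gw_some g (hS.fix hα hβ he g) h₁
    rcases cyc4 (gw g (hS.fix hα hβ he g)) hQ (hS.two hT) hm (e3 ▸ Point.some_ne_zero _) with e1 | e1
    · rw [eQ, e4] at e1
      exact (Point.some.inj e1).1
    · rw [eQ, e4, Point.neg_some] at e1
      exact (Point.some.inj e1).1
  have hsK := KQ.sub_mem hxK he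
  let W' : WeierstrassCurve.Affine Qb := ⟨0, -2 * α, 0, α ^ 2 - 4 * β, 0⟩
  have hS' : Sh W' (-2 * α) (α ^ 2 - 4 * β) 0 := ⟨rfl, by ring, rfl, by ring, by ring⟩
  let Φ : W.Point →+ W'.Point := AddMonoidHom.mk' (iso β e W') (iso_add hS h2 h0 hd hS')
  have hS'' : Sh W' (α + 6 * (x - e)) (4 * (x - e) * (α + 2 * (x - e))) (α + 2 * (x - e)) :=
    ⟨rfl, by ring, rfl, by linear_combination 4 * hs, by ring⟩
  have hd' : (α + 2 * (x - e)) * (α - 2 * (x - e)) ≠ 0 := by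
    rw [← hs] at hd
    exact fun h => hd (by linear_combination h)
  have n1 : 4 * (x - e) * (α + 2 * (x - e)) ≠ 0 :=
    mul_ne_zero (mul_ne_zero (by norm_num) hz) (left_ne_zero_of_mul hd')
  have n2 : (α + 6 * (x - e)) ^ 2 - 4 * (4 * (x - e) * (α + 2 * (x - e))) ≠ 0 := fun h =>
    pow_ne_zero 2 (right_ne_zero_of_mul hd') (by linear_combination h)
  have k2 := KQ.add_mem hα (KQ.mul_mem (ofNat_mem KQ 2) hsK)
  refine ⟨x - e, hsK, hz, hs, W', α + 2 * (x - e), Φ P, hS''.nsg h2 n1 n2 (by ring), hS'',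
    KQ.add_mem hα (KQ.mul_mem (ofNat_mem KQ 6) hsK),
    KQ.mul_mem (KQ.mul_mem (ofNat_mem KQ 4) hsK) k2, k2, n1, n2, ?_, fun g => ?_⟩
  · rw [← map_nsmul, eQ]
    refine (iso_some hS h2 h0 hd hS' h₁ hx).trans ?_
    congr 1
    · rw [div_pow, hS.eqn.1 h₁.1, ← hs]
      field_simp
      ring
    · rw [← hs]
      field_simp
      ring
  · obtain ⟨m, hm⟩ := hg g
    refine ⟨m, ?_⟩
    rw [← map_zsmul, ← hm]
    clear hm hP hQ eQ hg
    rcases P with _ | ⟨u, v, h₂⟩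
    · rfl
    obtain ⟨h3, e3⟩ := gw_some g (hS.fix hα hβ he g) h₂
    rw [show ptFun g W (.some u v h₂) = _ from e3]
    have hge := mem_KQ.1 he g
    by_cases hu : u = e
    · rw [show Φ (.some u v h₂) = 0 from if_pos hu,
        show Φ (.some _ _ h3) = 0 from if_pos (by rw [hu, hge])]
      rfl
    · rw [show Φ (.some u v h₂) = _ from iso_some hS h2 h0 hd hS' h₂ hu,
        show Φ (.some _ _ h3) = _ from if_neg fun h => hu (g.injective (h.trans hge.symm))]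
      simp only [ptFun, map_pow, map_div₀, map_sub, map_mul, hge, mem_KQ.1 hβ g]

theorem not_cy {α β : Qb} (h : Cy 5 α β) : False := by
  obtain ⟨-, -, -, -, -, ⟨A, rfl⟩, -, -, -, hd, -⟩ := id h
  obtain ⟨_, ⟨s₀, rfl⟩, n₀, rfl, h₀⟩ := h.step
  obtain ⟨_, ⟨s₁, rfl⟩, n₁, e₁, h₁⟩ := h₀.step
  obtain ⟨_, ⟨s₂, rfl⟩, n₂, e₂, h₂⟩ := h₁.step
  obtain ⟨_, ⟨s₃, rfl⟩, n₃, e₃, h₃⟩ := h₂.step
  obtain ⟨_, ⟨s₄, rfl⟩, n₄, e₄, -⟩ := h₃.step
  clear h h₀ h₁ h₂ h₃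
  simp only [eq_ratCast] at *
  norm_cast at *
  refine no_chain (div_ne_zero n₁ n₀) (div_ne_zero n₂ n₁) (div_ne_zero n₃ n₂) (div_ne_zero n₄ n₃)
    (fun h => hd ?_) (chain3 n₀ n₁ e₁ e₂) (chain3 n₁ n₂ e₂ e₃) (chain3 n₂ n₃ e₃ e₄)
  rw [div_eq_iff n₀] at h
  have : A = 2 * s₀ := mul_left_cancel₀ (mul_ne_zero four_ne_zero n₀) (by
    rw [h] at e₁; linear_combination -e₁)
  rw [this]
  ring

variable {a b : ℚ} (hD : 4 * a ^ 3 + 27 * b ^ 2 ≠ 0)
include hD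

theorem no_line {x : Tm a b} (h0 : TM.cp 1 x ≠ 0) (h : ∀ g, ∃ c : ℤ_[2], rho a b g x = c • x) :
    False := by
  have h2 : 2 • TM.cp 1 x = 0 := (TM.cp_succ x 0).trans (TM.cp_zero x)
  obtain ⟨e, y, hT, eT⟩ : ∃ e y hT, TM.cp 1 x = .some e y hT := by
    generalize TM.cp 1 x = T at h0
    rcases T with _ | ⟨e, y, hT⟩
    · exact absurd rfl h0
    · exact ⟨e, y, hT, rfl⟩
  obtain rfl : y = 0 := (two_tors two_ne_zero hT).1 (eT ▸ h2)
  have he := eqn hT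
  have heK : e ∈ KQ := mem_KQ.2 fun g => by
    obtain ⟨c, hc⟩ := h g
    have e1 := congrArg (TM.cp 1) hc
    rw [cp_rho, TM.cp_smul] at e1
    obtain ⟨m, hm | hm⟩ := Nat.even_or_odd' (ap c 1)
    · rw [hm, mul_comm, mul_smul, h2, nsmul_zero, eT, ga_some] at e1
      exact absurd e1 (Point.some_ne_zero _)
    · rw [hm, add_nsmul, mul_comm, mul_smul, h2, nsmul_zero, zero_add, one_nsmul, eT, ga_some] at e1
      exact (Point.some.inj e1).1
  have hD' : 4 * algebraMap ℚ Qb a ^ 3 + 27 * algebraMap ℚ Qb b ^ 2 ≠ 0 := fun h =>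
    hD ((algebraMap ℚ Qb).injective (by simpa only [map_add, map_mul, map_pow, map_ofNat, map_zero]))
  have hd : (3 * e ^ 2 + algebraMap ℚ Qb a) ^ 2 *
      ((3 * e) ^ 2 - 4 * (3 * e ^ 2 + algebraMap ℚ Qb a)) ≠ 0 := fun h => hD' (by
    rw [show algebraMap ℚ Qb b = -(e ^ 3 + algebraMap ℚ Qb a * e) by linear_combination -he]
    linear_combination -h)
  refine not_cy (α := 3 * e) (β := 3 * e ^ 2 + algebraMap ℚ Qb a) ⟨Cv Qb a b, e, TM.cp (1 + 5) x, hT,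
    ⟨rfl, by ring, rfl, by ring, ?_⟩, KQ.mul_mem (ofNat_mem KQ 3) heK,
    KQ.add_mem (KQ.mul_mem (ofNat_mem KQ 3) (KQ.pow_mem heK 2)) ⟨a, rfl⟩, heK,
    fun h => hd (by rw [h]; ring), right_ne_zero_of_mul hd, (TM.cp_add x 1 5).trans eT,
    fun g => ?_⟩
  · change algebraMap ℚ Qb b = _
    linear_combination -he
  · obtain ⟨c, hc⟩ := h g
    have e1 := congrArg (TM.cp (1 + 5)) hc
    rw [cp_rho, TM.cp_smul] at e1
    exact ⟨ap c (1 + 5), e1.trans (natCast_zsmul _ _).symm⟩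

theorem no_vec {v : Fin 2 → ℤ_[2]} {j : Fin 2} (hj : v j = 1)
    (h : ∀ g, (mt hD g *ᵥ v) 0 * v 1 = (mt hD g *ᵥ v) 1 * v 0) : False := by
  have e0 : ⇑((bs hD).repr ((bs hD).equivFun.symm v)) = v := by
    rw [← Module.Basis.equivFun_apply, LinearEquiv.apply_symm_apply]
  refine no_line hD (x := (bs hD).equivFun.symm v) (fun h0 => ?_) fun g => ⟨(mt hD g *ᵥ v) j, ?_⟩
  · obtain ⟨y, hy⟩ := TM.cp_eq_zero_iff.1 h0
    have := congrFun e0 j
    rw [hy, hj, map_smul, Finsupp.smul_apply, smul_eq_mul, pow_one] at this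
    exact PadicInt.irreducible_p.not_isUnit (IsUnit.of_mul_eq_one _ this)
  · apply (bs hD).repr.injective
    apply DFunLike.coe_injective
    have e1 := LinearMap.toMatrix_mulVec_repr (bs hD) (bs hD) (rho a b g) ((bs hD).equivFun.symm v)
    rw [e0] at e1
    change ⇑((bs hD).repr _) = ⇑((bs hD).repr _)
    rw [← e1, map_smul, Finsupp.coe_smul, e0]
    change mt hD g *ᵥ v = _
    have := h g
    generalize mt hD g *ᵥ v = w at this
    ext i
    rw [Pi.smul_apply, smul_eq_mul]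
    fin_cases i <;> fin_cases j <;> simp only [Fin.zero_eta, Fin.mk_one, Fin.isValue] at hj ⊢
    · rw [hj, mul_one]
    · rw [← this, hj, mul_one]
    · rw [this, hj, mul_one]
    · rw [hj, mul_one]

theorem exists_isConj : ∃ c : GQ, St.IsConj c := by
  have : Algebra.IsAlgebraic ℚ Qb := AlgebraicClosure.isAlgebraic ℚ
  have : IsAlgClosure ℚ Qb := ⟨inferInstance, inferInstance⟩
  have : IsGalois ℚ Qb := IsAlgClosure.isGalois ℚ Qb
  let φ : Qb →+* ℂ := (IsAlgClosed.lift (R := ℚ) (S := Qb) (M := ℂ)).toRingHom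
  let _ : Algebra Qb ℂ := φ.toAlgebra
  have : IsScalarTower ℚ Qb ℂ := IsScalarTower.of_algebraMap_eq' (Subsingleton.elim _ _)
  let χ : ℂ ≃ₐ[ℚ] ℂ := Complex.conjAe.restrictScalars ℚ
  exact ⟨χ.restrictNormal Qb, φ, fun x => AlgEquiv.restrictNormal_commutes χ Qb x⟩

theorem irr_rep : St.AbsIrr (rep hD) := by
  intro w hw
  by_contra hc
  push Not at hc
  let ι : ℤ_[2] →+* AlgebraicClosure ℚ_[2] := (algebraMap ℚ_[2] _).comp (algebraMap ℤ_[2] ℚ_[2])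
  have hι : Function.Injective ι :=
    (algebraMap ℚ_[2] _).injective.comp Subtype.val_injective
  have hc' : ∀ g, ∃ t, ι (mt hD g 0 0) * w 0 + ι (mt hD g 0 1) * w 1 = t * w 0 ∧
      ι (mt hD g 1 0) * w 0 + ι (mt hD g 1 1) * w 1 = t * w 1 := fun g => by
    obtain ⟨t, ht⟩ := hc g
    have h0 := congrFun ht 0
    have h1 := congrFun ht 1
    rw [mulVec, dotProduct, Fin.sum_univ_two] at h0 h1
    exact ⟨t, h0, h1⟩
  have hw' : ∀ t, t * w 0 = 0 → t * w 1 = 0 → t = 0 := fun t h0 h1 => by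
    by_contra ht
    refine hw (funext fun i => ?_)
    fin_cases i
    · exact (mul_eq_zero.1 h0).resolve_left ht
    · exact (mul_eq_zero.1 h1).resolve_left ht
  have key : ∀ p q : ℤ_[2], ι p * w 0 + ι q * w 1 = 0 → p = 0 ∧ q = 0 := by
    intro p q h
    have k2 : ∀ (v : Fin 2 → ℤ_[2]) (j : Fin 2), v j = 1 → ι (v 1) * w 0 = ι (v 0) * w 1 → False := by
      refine fun v j hj hv => no_vec hD hj fun g => hι (sub_eq_zero.1 (hw' _ ?_ ?_))
      all_goals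
        obtain ⟨t, h0, h1⟩ := hc' g
        simp only [mulVec, dotProduct, Fin.sum_univ_two, map_add, map_mul]
      · linear_combination ι (v 0) * ι (v 1) * h0 - ι (v 0) ^ 2 * h1 +
          (ι (mt hD g 0 1) * ι (v 1) - ι (mt hD g 1 1) * ι (v 0) + t * ι (v 0)) * hv
      · linear_combination ι (v 1) ^ 2 * h0 - ι (v 0) * ι (v 1) * h1 +
          (ι (mt hD g 1 0) * ι (v 0) - ι (mt hD g 0 0) * ι (v 1) + t * ι (v 1)) * hv
    rcases ValuationRing.dvd_total p q with ⟨d, rfl⟩ | ⟨d, rfl⟩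
    · have h0 : p = 0 := by
        by_contra hp
        refine k2 ![-d, 1] 1 rfl (mul_left_cancel₀ ((map_ne_zero_iff ι hι).2 hp) ?_)
        simp only [cons_val_zero, cons_val_one, map_one, map_neg, map_mul] at h ⊢
        linear_combination h
      exact ⟨h0, by rw [h0, zero_mul]⟩
    · have h0 : q = 0 := by
        by_contra hp
        refine k2 ![1, -d] 0 rfl (mul_left_cancel₀ ((map_ne_zero_iff ι hι).2 hp) ?_)
        simp only [cons_val_zero, cons_val_one, map_one, map_neg, map_mul] at h ⊢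
        linear_combination -h
      exact ⟨by rw [h0, zero_mul], h0⟩
  obtain ⟨c, hcj⟩ := exists_isConj hD
  obtain ⟨t, h0, h1⟩ := hc' c
  have hs : mt hD c * mt hD c = 1 := by rw [← map_mul, conj_sq hD hcj, map_one]
  have s00 := congrArg ι (congrFun (congrFun hs 0) 0)
  have s01 := congrArg ι (congrFun (congrFun hs 0) 1)
  have s10 := congrArg ι (congrFun (congrFun hs 1) 0)
  have s11 := congrArg ι (congrFun (congrFun hs 1) 1)
  simp only [mul_apply, Fin.sum_univ_two, map_add, map_mul, one_apply_eq, map_one, ne_eq,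
    zero_ne_one, one_ne_zero, not_false_eq_true, one_apply_ne, map_zero] at s00 s01 s10 s11
  have ht : t * t = 1 := sub_eq_zero.1 (hw' _
    (by linear_combination w 0 * s00 + w 1 * s01 - (ι (mt hD c 0 0) + t) * h0 - ι (mt hD c 0 1) * h1)
    (by linear_combination w 0 * s10 + w 1 * s11 - ι (mt hD c 1 0) * h0 - (ι (mt hD c 1 1) + t) * h1))
  obtain ⟨ε, hε, rfl⟩ : ∃ ε : ℤ_[2], (ε = 1 ∨ ε = -1) ∧ ι ε = t := by
    rcases mul_self_eq_one_iff.1 ht with rfl | rfl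
    · exact ⟨1, Or.inl rfl, map_one ι⟩
    · exact ⟨-1, Or.inr rfl, by rw [map_neg, map_one]⟩
  obtain ⟨a0, a1⟩ := key (mt hD c 0 0 - ε) (mt hD c 0 1) (by rw [map_sub]; linear_combination h0)
  obtain ⟨b0, b1⟩ := key (mt hD c 1 0) (mt hD c 1 1 - ε) (by rw [map_sub]; linear_combination h1)
  refine conj_ne hD hcj ε hε (Matrix.ext fun i j => ?_)
  fin_cases i <;> fin_cases j <;> simp [sub_eq_zero.1 a0, a1, b0, sub_eq_zero.1 b1]

end Vale.Agent.P004M.TE
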