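import Vale.Agent.P004M.TE.Irr
import Vale.Agent.P004N.H169.LF5

/-!
The 2-adic representation of an elliptic curve over `ℚ`.
-/

set_option linter.all false

noncomputable section

namespace Vale.Agent.P004M.TE

open Vale.Agent.P022 P004N.H169.LF

/-- the coefficients of the Hasse-Weil `L`-function -/
def al (A B : ℤ) (l : ℕ) : ℤ :=
  (⟨0, 0, 0, A * (1 : ℤ) ^ 2, B * (1 : ℤ) ^ 3⟩ : WeierstrassCurve ℚ).LFunction l

theorem al_eq {A B : ℤ} {l : ℕ} [hl : Fact l.Prime]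
    (hg : ¬ (l : ℤ) ∣ 2 * (4 * A ^ 3 + 27 * B ^ 2)) : al A B l = -cs (A : ZMod l) (B : ZMod l) := by
  have hp := Nat.prime_iff_prime_int.1 hl.out
  have hΔ : ¬ (l : ℤ) ∣ (sw A B).Δ := by
    rw [sw_Δ, show -16 * (4 * A ^ 3 + 27 * B ^ 2) = -(2 ^ 3 * (2 * (4 * A ^ 3 + 27 * B ^ 2))) by
      ring, dvd_neg]
    exact fun h => hg ((hp.dvd_or_dvd h).elim (fun h => (hp.dvd_of_dvd_pow h).mul_right _) id)
  have g1 := (LFunction_good (sw A B) hl.out hΔ).1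
  rw [sw_map, sw_map] at g1
  simp only [eq_intCast] at g1
  rw [@cnt_sw (ZMod l) _ _ (Classical.decEq _) (char_ne hg), ZMod.card] at g1
  have e : (⟨0, 0, 0, A * (1 : ℤ) ^ 2, B * (1 : ℤ) ^ 3⟩ : WeierstrassCurve ℚ) = sw (A : ℚ) (B : ℚ) := by
    simp [sw]
  rw [al, e, g1, sub_add_cancel_left]
  rfl

/-- **the Tate module** -/
theorem tate (A B : ℤ) (hD : 4 * A ^ 3 + 27 * B ^ 2 ≠ 0) : ∃ r : GQ →* GL (Fin 2) ℚ_[2],
    Continuous r ∧ St.OddRep r ∧ St.AbsIrr r ∧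
    (∀ g i j, ‖(r g : Matrix (Fin 2) (Fin 2) ℚ_[2]) i j‖ ≤ 1) ∧
    ∀ l : ℕ, l.Prime → ¬ (l : ℤ) ∣ 2 * (4 * A ^ 3 + 27 * B ^ 2) →
      St.UnrAt r l ∧ al A B l ^ 2 ≤ 4 * l ∧ ∀ g, St.IsFrob l g →
        (r g : Matrix (Fin 2) (Fin 2) ℚ_[2]).trace = (al A B l : ℚ_[2]) ∧
        (r g : Matrix (Fin 2) (Fin 2) ℚ_[2]).det = l := by
  have hD' : 4 * (A : ℚ) ^ 3 + 27 * (B : ℚ) ^ 2 ≠ 0 := by exact_mod_cast hD
  refine ⟨rep hD', cont_rep hD', odd_rep hD', irr_rep hD', fun g i j => (mt hD' g i j).2,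
    fun l hl hg => ?_⟩
  have : Fact l.Prime := ⟨hl⟩
  refine ⟨unr_rep hD' hg, by rw [al_eq hg, neg_sq]; exact cs_le hg, fun g h => ?_⟩
  obtain ⟨h1, h2⟩ := frob_mt hD' hg h
  rw [rep_val, ← RingHom.map_det, h2, map_natCast, RingHom.mapMatrix_apply,
    ← AddMonoidHom.map_trace, h1, al_eq hg]
  simp

end Vale.Agent.P004M.TE
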