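import Vale.Agent.P004M.TE.Deg

/-!
The Frobenius endomorphism of `y² = x³ + a x + b` over a finite field: its characteristic equation
and the size of the kernel of `F - n`.
-/

set_option linter.all false

open scoped Classical

noncomputable section

namespace Vale.Agent.P004M.TE

open Polynomial WeierstrassCurve.Affine Vale.Agent.P004H.H666 IntermediateField

variable {k : Type} [Field k] {L L' : Type} [Field L] [Algebra k L] [Field L'] [Algebra k L']
  {a b : k}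

theorem xp_eq {F : Type} [Field F] {A B : F} {P Q : (crv A B).Point} (hP : P ≠ 0) (hQ : Q ≠ 0)
    (h : xp P = xp Q) : P = Q ∨ P = -Q := by
  rcases P with _ | ⟨x, y, h1⟩
  · exact absurd rfl hP
  rcases Q with _ | ⟨x', y', h2⟩
  · exact absurd rfl hQ
  exact Point.X_eq_iff.1 h

theorem sq_u {t u : L} (h : (Cv L a b).Nonsingular t u) : u ^ 2 = aeval t (lam a b) := by
  rw [eqn h]; simp [lam]

theorem aeval_mem (t : L) (p : k[X]) : aeval t p ∈ (k⟮t⟯).toSubfield :=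
  (mem_adjoin_simple_iff k _).2 ⟨p, 1, by simp⟩

section gen
variable (h2 : (2 : k) ≠ 0) (hD : 4 * a ^ 3 + 27 * b ^ 2 ≠ 0) {t u : L}
  (h : (Cv L a b).Nonsingular t u) (ht : Function.Injective (aeval t : k[X] →ₐ[k] L))
include h ht

theorem u_ne : u ≠ 0 := by
  intro e
  have := sq_u h
  rw [e, zero_pow two_ne_zero, eq_comm, map_eq_zero_iff _ ht] at this
  exact lam_ne a b this

theorem in_add {P Q : (Cv L a b).Point} (hP : In (k⟮t⟯).toSubfield u P)
    (hQ : In (k⟮t⟯).toSubfield u Q) : In (k⟮t⟯).toSubfield u (P + Q) :=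
  In.add (u_ne h ht) (sq_u h ▸ aeval_mem t _) ((k⟮t⟯).algebraMap_mem a) hP hQ

include h2 hD

theorem par' {P Q : (Cv L a b).Point} (hP : In (k⟮t⟯).toSubfield u P)
    (hQ : In (k⟮t⟯).toSubfield u Q) {d d' : ℕ} (e : Hd t P d) (e' : Hd t Q d') :
    ∃ d₁ d₂, Hd t (P + Q) d₁ ∧ Hd t (P - Q) d₂ ∧ d₁ + d₂ = 2 * d + 2 * d' := by
  obtain ⟨f₁, g₁, h₁⟩ := exists_rp ht (in_add h ht hP hQ)
  obtain ⟨f₂, g₂, h₂⟩ := exists_rp ht (in_add h ht hP hQ.neg)
  rw [← sub_eq_add_neg] at h₂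
  exact par h2 hD ht e e' h₁ h₂

/-- the points which have a degree -/
def Mg : AddSubgroup (Cv L a b).Point where
  carrier := {P | In (k⟮t⟯).toSubfield u P ∧ ∃ d, Hd t P d}
  zero_mem' := ⟨trivial, 0, hd_zero t⟩
  neg_mem' := fun ⟨h1, d, h2⟩ => ⟨h1.neg, d, h2.neg⟩
  add_mem' := fun ⟨h1, _, e⟩ ⟨h1', _, e'⟩ => ⟨in_add h ht h1 h1', by
    obtain ⟨d₁, -, h3, -⟩ := par' h2 hD h ht h1 h1' e e'
    exact ⟨d₁, h3⟩⟩

theorem exists_D : ∃ (D : Mg h2 hD h ht → ℤ) (β : Mg h2 hD h ht →+ Mg h2 hD h ht →+ ℤ),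
    (∀ (P : Mg h2 hD h ht) (d : ℕ), Hd t P.1 d ↔ D P = d) ∧ (∀ P, 0 ≤ D P) ∧
    (∀ P, β P P = 2 * D P) ∧ ∀ P Q, β P Q = β Q P := by
  have e : ∀ (P : Mg h2 hD h ht) (d : ℕ), Hd t P.1 d ↔ (P.2.2.choose : ℤ) = d := fun P d =>
    ⟨fun e => by rw [P.2.2.choose_spec.unique ht e],
      fun e => by rw [← Int.ofNat.inj e]; exact P.2.2.choose_spec⟩
  have hp : ∀ P Q : Mg h2 hD h ht, ((P + Q).2.2.choose : ℤ) + ((P - Q).2.2.choose : ℤ) =
      2 * (P.2.2.choose : ℤ) + 2 * (Q.2.2.choose : ℤ) := by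
    intro P Q
    obtain ⟨d₁, d₂, h1, h3, h4⟩ := par' h2 hD h ht P.2.1 Q.2.1 P.2.2.choose_spec Q.2.2.choose_spec
    rw [(e (P + Q) d₁).1 h1, (e (P - Q) d₂).1 h3]
    exact_mod_cast h4
  obtain ⟨β, hβ⟩ := exists_bil (fun P : Mg h2 hD h ht => (P.2.2.choose : ℤ)) hp
  refine ⟨fun P => (P.2.2.choose : ℤ), β, e, fun _ => Int.natCast_nonneg _, fun P => ?_,
    fun P Q => by rw [hβ, hβ, add_comm P Q]; ring⟩
  have h5 := hp P P
  rw [(e (P - P) 0).1 (by rw [sub_self]; exact hd_zero t)] at h5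
  rw [hβ]
  push_cast at h5
  linarith

theorem gen_mem : Point.some t u h ∈ Mg h2 hD h ht :=
  ⟨⟨mem_adjoin_simple_self k t, by rw [div_self (u_ne h ht)]; exact one_mem _⟩, 1, X, 1,
    ⟨isCoprime_one_right, 1, one_ne_zero, by simp, by simp⟩, by simp, natDegree_X⟩

end gen

variable [Fintype k]

/-- the Frobenius endomorphism -/
def Fb : (Cv L a b).Point →+ (Cv L a b).Point := pa (FiniteField.frobeniusAlgHom k L)

theorem pa_Fb (σ : L →ₐ[k] L') (P : (Cv L a b).Point) : pa σ (Fb P) = Fb (pa σ P) := by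
  rcases P with _ | ⟨x, y, h⟩
  · change pa σ (Fb 0) = Fb (pa σ 0)
    simp
  · rw [Fb, Fb, pa_some, pa_some, pa_some, pa_some]
    simp only [FiniteField.coe_frobeniusAlgHom, map_pow]

theorem xp_Fb (P : (Cv L a b).Point) : xp (Fb P) = xp P ^ Fintype.card k := xp_pa _ P

theorem zp_Fb (P : (Cv L a b).Point) : zp (Fb P) = zp P ^ Fintype.card k := zp_pa _ P

theorem Hd.frob {t : L} {P : (Cv L a b).Point} {d : ℕ} (h : Hd t P d) :
    Hd t (Fb P) (Fintype.card k * d) := by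
  obtain ⟨f, g, ⟨hc, ρ, hρ, hx, hz⟩, hd, rfl⟩ := h
  refine ⟨f ^ Fintype.card k, g ^ Fintype.card k, ⟨hc.pow, ρ ^ Fintype.card k, pow_ne_zero _ hρ,
    by rw [xp_Fb, hx, mul_pow, map_pow], by rw [zp_Fb, hz, mul_pow, map_pow]⟩, ?_, natDegree_pow _ _⟩
  rcases eq_or_ne g 0 with rfl | hg
  · rw [zero_pow Fintype.card_ne_zero, degree_zero]
    exact bot_lt_iff_ne_bot.2 (degree_ne_bot.2 (pow_ne_zero _ (ne_of_deg hd)))
  · refine degree_lt_degree ?_
    rw [natDegree_pow, natDegree_pow]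
    exact Nat.mul_lt_mul_of_pos_left (natDegree_lt_natDegree hg hd) Fintype.card_pos

theorem In.frob {K : Subfield L} {u : L} {m : ℕ} (hq : Fintype.card k = 2 * m + 1) (hu : u ≠ 0)
    (h2 : u ^ 2 ∈ K) {P : (Cv L a b).Point} (h : In K u P) : In K u (Fb P) := by
  rcases P with _ | ⟨x, y, h'⟩
  · exact (map_zero (Fb (L := L) (a := a) (b := b))).symm ▸ trivial
  · rw [Fb, pa_some]
    refine ⟨K.pow_mem h.1 _, ?_⟩
    have : FiniteField.frobeniusAlgHom k L y / u = (y / u) ^ (2 * m + 1) * (u ^ 2) ^ m := by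
      rw [FiniteField.coe_frobeniusAlgHom, hq, div_pow]
      field_simp
      ring
    rw [this]
    exact K.mul_mem (K.pow_mem h.2 _) (K.pow_mem h2 _)

/-- the character sum -/
def cs (a b : k) : ℤ := ∑ x, quadraticChar k (x ^ 3 + a * x + b)

theorem exists_m (hF : ringChar k ≠ 2) : ∃ m, Fintype.card k = 2 * m + 1 ∧ m ≠ 0 := by
  have hodd := FiniteField.odd_card_of_char_ne_two hF
  have h1 : 1 < Fintype.card k := Fintype.one_lt_card
  exact ⟨Fintype.card k / 2, by omega, by omega⟩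

section gen
variable (hF : ringChar k ≠ 2) (hD : 4 * a ^ 3 + 27 * b ^ 2 ≠ 0) {t u : L}
  (h : (Cv L a b).Nonsingular t u) (ht : Function.Injective (aeval t : k[X] →ₐ[k] L))
include hF hD h ht

theorem hd_fsub : ∃ d : ℕ, Hd t (Fb (.some t u h) - .some t u h) d ∧
    (d : ℤ) = Fintype.card k + 1 + cs a b := by
  have h2 : (2 : k) ≠ 0 := Ring.two_ne_zero hF
  obtain ⟨m, hq, hm⟩ := exists_m hF
  obtain ⟨f, g, ⟨hc, ρ, hρ, hx, hz⟩, hd, hN⟩ := hd_sub hF h2 hD hq hm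
  obtain ⟨e1, e2⟩ := sub_eq h2 hD hq
  have hg : g ≠ 0 := by
    rintro rfl
    rw [hz, map_zero, mul_zero] at e2
    exact zero_ne_one e2
  have key : f * (X ^ Fintype.card k - X) ^ 2 = nm a b (Fintype.card k) m * g := by
    refine mul_left_cancel₀ (lam_ne a b) (ph_inj ?_)
    rw [hx] at e1
    rw [hz] at e2
    simp only [map_mul, map_pow] at e1 ⊢
    linear_combination ph g * e1 - ph (lam a b) * ph f * ph (X ^ Fintype.card k - X) ^ 2 * e2
  have hg' : aeval t g ≠ 0 := (map_ne_zero_iff _ ht).2 hg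
  have hX : t ^ Fintype.card k - t ≠ 0 := by
    simpa using (map_ne_zero_iff _ ht).2 (xpow_ne (k := k))
  have k2 := congrArg (aeval t) key
  simp only [nm, map_mul, map_pow, map_sub, map_add, map_one, aeval_X, ← sq_u h] at k2
  refine ⟨_, ⟨f, g, ⟨hc, (aeval t g)⁻¹, inv_ne_zero hg', ?_⟩, hd, rfl⟩, hN⟩
  have hx' : FiniteField.frobeniusAlgHom k L t ≠ t := sub_ne_zero.1 hX
  rw [Fb, pa_some, sub_eq_add_neg, Point.neg_some, Point.add_of_X_ne hx', xp_some, zp_some]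
  refine ⟨?_, (inv_mul_cancel₀ hg').symm⟩
  rw [addX, slope_of_X_ne hx']
  simp only [negY, zero_mul, sub_zero, add_zero, FiniteField.coe_frobeniusAlgHom]
  have e3 : u ^ Fintype.card k = u * (u ^ 2) ^ m := by rw [hq]; ring
  rw [e3]
  field_simp
  linear_combination -k2

theorem gen_both : (Fb (Fb (.some t u h)) + cs a b • Fb (.some t u h) +
    (Fintype.card k : ℤ) • Point.some t u h = 0) ∧
    ∀ n : ℤ, ∃ d : ℕ, Hd t (Fb (.some t u h) - n • Point.some t u h) d ∧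
      (d : ℤ) = n ^ 2 + cs a b * n + Fintype.card k := by
  have h2 : (2 : k) ≠ 0 := Ring.two_ne_zero hF
  obtain ⟨m, hq, -⟩ := exists_m hF
  obtain ⟨D, β, hH, h0, hβ, hs⟩ := exists_D h2 hD h ht
  have hF' : ∀ P ∈ Mg h2 hD h ht, Fb P ∈ Mg h2 hD h ht := fun P ⟨h1, d, e⟩ =>
    ⟨h1.frob hq (u_ne h ht) (sq_u h ▸ aeval_mem t _), _, e.frob⟩
  let Φ : Mg h2 hD h ht →+ Mg h2 hD h ht :=
    (Fb.comp (Mg h2 hD h ht).subtype).codRestrict _ fun P => hF' P.1 P.2
  have hΦ : ∀ P, β (Φ P) (Φ P) = Fintype.card k * β P P := by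
    intro P
    obtain ⟨d, e⟩ := P.2.2
    rw [hβ, hβ, (hH P d).1 e, (hH (Φ P) _).1 e.frob]
    push_cast
    ring
  have hd : ∀ P (c : ℤ), β P P = 2 * c → ∃ d : ℕ, Hd t P.1 d ∧ (d : ℤ) = c := by
    intro P c e
    obtain ⟨d, e'⟩ := P.2.2
    rw [hβ, (hH P d).1 e'] at e
    exact ⟨d, e', by omega⟩
  set R : Mg h2 hD h ht := ⟨_, gen_mem h2 hD h ht⟩ with hR
  have b00 : β R R = 2 := by
    rw [hβ, (hH R 1).1 ⟨X, 1, ⟨isCoprime_one_right, 1, one_ne_zero, by simp [hR], by simp [hR]⟩,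
      by simp, natDegree_X⟩]
    rfl
  have b11 := hΦ R
  have b22 := hΦ (Φ R)
  obtain ⟨d₁, e₁, c₁⟩ := hd_fsub hF hD h ht
  have b01 : β R (Φ R) = -cs a b := by
    have := hβ (Φ R - R)
    rw [(hH (Φ R - R) d₁).1 e₁, c₁] at this
    simp only [map_sub, AddMonoidHom.sub_apply, hs (Φ R) R] at this
    rw [b11, b00] at this
    omega
  have hn : ∀ n : ℤ, ∃ d : ℕ, Hd t (Fb (.some t u h) - n • Point.some t u h) d ∧
      (d : ℤ) = n ^ 2 + cs a b * n + Fintype.card k := by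
    intro n
    refine hd (Φ R - n • R) _ ?_
    simp only [map_sub, map_zsmul, AddMonoidHom.sub_apply, AddMonoidHom.zsmul_apply, hs (Φ R) R,
      smul_eq_mul]
    rw [b11, b00, b01]
    ring
  refine ⟨?_, hn⟩
  have b12 : β (Φ R) (Φ (Φ R)) = -(Fintype.card k * cs a b) := by
    have := hΦ (R + Φ R)
    simp only [map_add, AddMonoidHom.add_apply, hs (Φ (Φ R)) (Φ R), hs (Φ R) R] at this
    rw [b22, b11, b00, b01] at this
    have h3 : 2 * β (Φ R) (Φ (Φ R)) = 2 * -(Fintype.card k * cs a b) := by linear_combination this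
    omega
  have b02 : β R (Φ (Φ R)) = cs a b ^ 2 - 2 * Fintype.card k := by
    obtain ⟨d₂, ⟨f, g, ⟨hc, ρ, hρ, hx, hz⟩, hfg, rfl⟩, c₂⟩ := hn (-1)
    rw [neg_smul, one_smul, sub_neg_eq_add] at hx hz
    have hS : Fb (.some t u h) + Point.some t u h ≠ 0 := by
      intro e
      have := congrArg xp (eq_neg_of_add_eq_zero_left e)
      rw [xp_neg, xp_Fb, xp_some, ← sub_eq_zero] at this
      exact (map_ne_zero_iff _ ht).2 (xpow_ne (k := k)) (by simpa using this)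
    obtain ⟨x, y, h', e⟩ : ∃ x y h', Fb (.some t u h) + Point.some t u h = .some x y h' := by
      generalize Fb (.some t u h) + Point.some t u h = S at hS
      rcases S with _ | ⟨x, y, h'⟩
      · exact absurd rfl hS
      · exact ⟨x, y, h', rfl⟩
    rw [e, xp_some] at hx
    rw [e, zp_some] at hz
    have hg : aeval t g ≠ 0 := right_ne_zero_of_mul (hz ▸ one_ne_zero)
    have ex : x = aeval t f / aeval t g := by
      rw [eq_div_iff hg, hx]
      linear_combination -aeval t f * hz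
    subst ex
    obtain ⟨d₃, e₃, c₃⟩ := hd_fsub hF hD h' (inj_div ht hfg fun e => hg (by rw [e, map_zero]))
    have e₄ := e₃.comp hc hfg hg
    rw [← e, map_add, add_sub_add_comm, ← add_sub_assoc, sub_add_cancel] at e₄
    have := hβ (Φ (Φ R) - R)
    rw [(hH (Φ (Φ R) - R) _).1 e₄] at this
    simp only [map_sub, AddMonoidHom.sub_apply, hs (Φ (Φ R)) R] at this
    push_cast at this
    rw [b22, b11, b00, c₃, c₂] at this
    have h3 : 2 * β R (Φ (Φ R)) = 2 * (cs a b ^ 2 - 2 * Fintype.card k) := by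
      linear_combination -this
    omega
  obtain ⟨d, e, c⟩ := hd (Φ (Φ R) + cs a b • Φ R + (Fintype.card k : ℤ) • R) 0 (by
    simp only [map_add, map_zsmul, AddMonoidHom.add_apply, AddMonoidHom.zsmul_apply, hs (Φ R) R,
      hs (Φ (Φ R)) R, hs (Φ (Φ R)) (Φ R), smul_eq_mul]
    rw [b22, b11, b00, b01, b02, b12]
    ring)
  rw [Int.natCast_eq_zero.1 c] at e
  exact e.eq_zero

end gen

omit [Fintype k] in
theorem nsg_cv (h2 : (2 : k) ≠ 0) (hD : 4 * a ^ 3 + 27 * b ^ 2 ≠ 0) {x y : L}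
    (h : y ^ 2 = x ^ 3 + algebraMap k L a * x + algebraMap k L b) : (Cv L a b).Nonsingular x y := by
  have e : (Cv L a b).Δ = algebraMap k L (-(2 ^ 4 * (4 * a ^ 3 + 27 * b ^ 2))) := by
    simp only [WeierstrassCurve.Δ, WeierstrassCurve.b₂, WeierstrassCurve.b₄, WeierstrassCurve.b₆,
      WeierstrassCurve.b₈, map_mul, map_neg, map_pow, map_add, map_ofNat]
    ring
  rw [← equation_iff_nonsingular_of_Δ_ne_zero, equation_iff]
  · simpa using h
  · rw [e]
    exact (_root_.map_ne_zero _).2 (neg_ne_zero.2 (mul_ne_zero (pow_ne_zero 4 h2) hD))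

omit [Fintype k] in
theorem exists_pt [IsAlgClosed L] (h2 : (2 : k) ≠ 0) (hD : 4 * a ^ 3 + 27 * b ^ 2 ≠ 0) (x : L) :
    ∃ y, (Cv L a b).Nonsingular x y := by
  obtain ⟨y, e⟩ := IsAlgClosed.exists_pow_nat_eq
    (x ^ 3 + algebraMap k L a * x + algebraMap k L b) two_pos
  exact ⟨y, nsg_cv h2 hD e⟩

/-- the rational function of `F - n` does not depend on the generic point -/
theorem unif [IsAlgClosed L] (hF : ringChar k ≠ 2) (hD : 4 * a ^ 3 + 27 * b ^ 2 ≠ 0) (n : ℤ) :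
    ∃ f g : k[X], g.degree < f.degree ∧
      (f.natDegree : ℤ) = n ^ 2 + cs a b * n + Fintype.card k ∧
      ∀ (t u : L) (h : (Cv L a b).Nonsingular t u), Function.Injective (aeval t : k[X] →ₐ[k] L) →
        Rp t (Fb (.some t u h) - n • Point.some t u h) f g := by
  have h2 : (2 : k) ≠ 0 := Ring.two_ne_zero hF
  let j : KK k →ₐ[k] AlgebraicClosure (KK k) := IsScalarTower.toAlgHom k (KK k) _
  have e0 : ∀ p : k[X], aeval (ph (X : k[X])) p = ph p := fun p =>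
    (aeval_algHom_apply (IsScalarTower.toAlgHom k k[X] (KK k)) X p).trans (by simp)
  have h0 : Function.Injective (aeval (j (ph X)) : k[X] →ₐ[k] _) := fun p p' e => by
    rw [aeval_algHom_apply j, aeval_algHom_apply j, e0, e0] at e
    exact ph_inj (j.injective e)
  obtain ⟨u₀, hu₀⟩ := exists_pt h2 hD (j (ph X))
  obtain ⟨d, ⟨f, g, hr, hd, rfl⟩, c⟩ := (gen_both hF hD hu₀ h0).2 n
  refine ⟨f, g, hd, c, fun t u h ht => ?_⟩
  let σ₀ : KK k →ₐ[k] L := IsFractionRing.liftAlgHom (K := KK k) ht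
  obtain ⟨σ, hσ⟩ : ∃ σ : AlgebraicClosure (KK k) →ₐ[k] L, σ (j (ph X)) = t := by
    letI : Algebra (KK k) L := σ₀.toRingHom.toAlgebra
    have : IsScalarTower k (KK k) L := IsScalarTower.of_algHom σ₀
    let τ : AlgebraicClosure (KK k) →ₐ[KK k] L := IsAlgClosed.lift
    refine ⟨τ.restrictScalars k, (τ.commutes (ph X)).trans ?_⟩
    exact (IsFractionRing.lift_algebraMap (K := KK k) (g := (aeval t : k[X] →ₐ[k] L).toRingHom)
      ht X).trans (aeval_X t)
  have h1 := hr.map σ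
  rw [map_sub, map_zsmul, pa_Fb, hσ] at h1
  have h3 : xp (pa σ (.some _ u₀ hu₀)) = xp (.some t u h) := by rw [xp_pa, xp_some, xp_some, hσ]
  rcases xp_eq (by rw [pa_some]; exact Point.some_ne_zero _) (Point.some_ne_zero _) h3 with e | e
  · rwa [e] at h1
  · rw [e, map_neg, smul_neg, neg_sub_neg, ← neg_sub] at h1
    obtain ⟨hc, ρ, hρ, hx, hz⟩ := h1
    exact ⟨hc, ρ, hρ, by rwa [xp_neg] at hx, by rwa [zp_neg] at hz⟩

section closed
variable {κ : Type} [Field κ] [Algebra k κ] [IsAlgClosed κ]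

omit [Fintype k] in
theorem gen_of [Algebra κ L] [IsScalarTower k κ L] (h2 : (2 : k) ≠ 0)
    (hD : 4 * a ^ 3 + 27 * b ^ 2 ≠ 0) {P : (Cv L a b).Point}
    (hP : P ∉ (pa (IsScalarTower.toAlgHom k κ L)).range) :
    ∃ t u h, P = .some t u h ∧ Function.Injective (aeval t : k[X] →ₐ[k] L) := by
  rcases P with _ | ⟨x, y, h⟩
  · exact absurd (zero_mem _) hP
  refine ⟨x, y, h, rfl, transcendental_iff_injective.1 fun hx => hP ?_⟩
  have hi : IsIntegral κ x := (hx.tower_top κ).isIntegral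
  obtain ⟨x₀, rfl⟩ := minpoly.mem_range_of_degree_eq_one κ x
    (IsAlgClosed.degree_eq_one_of_irreducible κ (minpoly.irreducible hi))
  obtain ⟨y₀, h₀⟩ := exists_pt h2 hD x₀
  rcases xp_eq (P := .some _ y h) (Q := pa (IsScalarTower.toAlgHom k κ L) (.some x₀ y₀ h₀))
    (Point.some_ne_zero _) (by rw [pa_some]; exact Point.some_ne_zero _)
    (by rw [xp_pa]; rfl) with e | e
  · exact ⟨_, e.symm⟩
  · exact ⟨-_, by rw [map_neg, e]⟩

omit [Fintype k] in
theorem exists_gen (h2 : (2 : k) ≠ 0) (hD : 4 * a ^ 3 + 27 * b ^ 2 ≠ 0) :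
    ∃ T : (Cv (AlgebraicClosure (KK κ)) a b).Point, ∀ P : (Cv κ a b).Point,
      T + pa (IsScalarTower.toAlgHom k κ _) P ∉ (pa (IsScalarTower.toAlgHom k κ _)).range := by
  obtain ⟨u, h⟩ := exists_pt h2 hD (algebraMap (KK κ) (AlgebraicClosure (KK κ)) (ph X))
  refine ⟨.some _ u h, fun P ⟨Q, e⟩ => ?_⟩
  have := congrArg xp (sub_eq_of_eq_add e)
  rw [← map_sub, xp_pa, xp_some, IsScalarTower.toAlgHom_apply,
    IsScalarTower.algebraMap_apply κ (KK κ), IsScalarTower.algebraMap_apply κ κ[X] (KK κ)] at this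
  exact X_ne_C _ (ph_inj ((algebraMap (KK κ) _).injective this)).symm

/-- **the characteristic equation of Frobenius** -/
theorem frob_ch (hF : ringChar k ≠ 2) (hD : 4 * a ^ 3 + 27 * b ^ 2 ≠ 0) (P : (Cv κ a b).Point) :
    Fb (Fb P) + cs a b • Fb P + (Fintype.card k : ℤ) • P = 0 := by
  have h2 : (2 : k) ≠ 0 := Ring.two_ne_zero hF
  obtain ⟨T, hT⟩ := exists_gen (κ := κ) h2 hD
  obtain ⟨t, u, h, e, ht⟩ := gen_of h2 hD (hT 0)
  obtain ⟨t', u', h', e', ht'⟩ := gen_of h2 hD (hT P)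
  have h1 := (gen_both hF hD h ht).1
  have h3 := (gen_both hF hD h' ht').1
  rw [← e, map_zero, add_zero] at h1
  rw [← e'] at h3
  apply pa_inj (IsScalarTower.toAlgHom k κ (AlgebraicClosure (KK κ)))
  simp only [map_add, map_zsmul, pa_Fb, smul_add, map_zero] at h3 ⊢
  rw [← sub_zero (0 : (Cv (AlgebraicClosure (KK κ)) a b).Point)]
  nth_rewrite 1 [← h3]
  rw [← h1]
  abel

/-- **the kernel of `F - n`** -/
theorem ker_card (hF : ringChar k ≠ 2) (hD : 4 * a ^ 3 + 27 * b ^ 2 ≠ 0) {n : ℤ}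
    (hG : n ^ 2 + cs a b * n + Fintype.card k ≠ 0) (s : Finset (Cv κ a b).Point)
    (hs : ∀ P ∈ s, Fb P = n • P) : (s.card : ℤ) ≤ 2 * (n ^ 2 + cs a b * n + Fintype.card k) := by
  have h2 : (2 : k) ≠ 0 := Ring.two_ne_zero hF
  obtain ⟨T, hT⟩ := exists_gen (κ := κ) h2 hD
  obtain ⟨f, g, hd, c, hr⟩ := unif (L := AlgebraicClosure (KK κ)) hF hD n
  set j := pa (a := a) (b := b) (IsScalarTower.toAlgHom k κ (AlgebraicClosure (KK κ))) with hj
  set Z := Fb T - n • T with hZ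
  have hz : zp Z ≠ 0 := by
    obtain ⟨t, u, h, e, ht⟩ := gen_of h2 hD (hT 0)
    obtain ⟨hc, ρ, hρ, -, hz⟩ := hr t u h ht
    rw [← e, map_zero, add_zero] at hz
    rw [hz]
    refine mul_ne_zero hρ ((map_ne_zero_iff _ ht).2 ?_)
    rintro rfl
    rw [← c, natDegree_eq_zero_of_isUnit (isCoprime_zero_right.1 hc)] at hG
    exact hG rfl
  set Ψ := C (zp Z) * f.map (algebraMap k _) - C (xp Z) * g.map (algebraMap k _) with hΨ
  have hdeg : Ψ.degree = f.degree := by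
    rw [hΨ, degree_sub_eq_left_of_degree_lt] <;> rw [degree_C_mul hz, degree_map]
    exact (dC_le _ _).trans_lt (by rwa [degree_map])
  have h0 : Ψ ≠ 0 := by
    rw [← degree_ne_bot, hdeg, degree_ne_bot]; exact ne_of_deg hd
  have h1 := Finset.card_le_mul_card_image_of_maps_to (s := s) (t := Ψ.roots.toFinset)
    (f := fun P => xp (T + j P)) (fun P hP => ?_) 2 fun x _ => ?_
  · rw [← c, ← natDegree_eq_of_degree_eq hdeg]
    have := (Multiset.toFinset_card_le Ψ.roots).trans (card_roots' Ψ)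
    omega
  · obtain ⟨t, u, h, e, ht⟩ := gen_of h2 hD (hT P)
    obtain ⟨hc, ρ, hρ, hx, hz⟩ := hr t u h ht
    have e' : Fb (T + j P) - n • (T + j P) = Z := by
      rw [map_add, hj, ← pa_Fb, hs P hP, map_zsmul, zsmul_add, hZ]; abel
    rw [← e, e'] at hx hz
    rw [Multiset.mem_toFinset, mem_roots h0, e, xp_some, IsRoot.def, hΨ, eval_sub, eval_mul,
      eval_mul, eval_C, eval_C, eval_map_algebraMap, eval_map_algebraMap, hx, hz]
    ring
  · rcases (s.filter fun P => xp (T + j P) = x).eq_empty_or_nonempty with e | ⟨Q, hQ⟩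
    · rw [e]; exact Nat.zero_le _
    refine le_trans (Finset.card_le_card_of_injOn (t := {T + j Q, -(T + j Q)}) (fun P => T + j P)
      (fun P hP => ?_) fun P _ P' _ e => pa_inj _ (add_left_cancel e)) Finset.card_le_two
    have hn : ∀ P, T + j P ≠ 0 := fun P e => hT P (e ▸ zero_mem _)
    simpa using xp_eq (hn P) (hn Q)
      ((Finset.mem_filter.1 hP).2.trans (Finset.mem_filter.1 hQ).2.symm)

end closed

end Vale.Agent.P004M.TE
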